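import Vale.Agent.P247.H74.Sta

/-!
# CE: cusp exclusion, cut into a local and a global part
-/

open scoped ContDiff Topology
open Set MeasureTheory Filter Metric Asymptotics

noncomputable section

namespace Vale.Agent.P247.H74

/-- the coefficient of the complex bilinear form -/
def chi (D : Data) (x : R4) : ℂ := (Complex.I - (D.c x 0 0 : ℂ)) / (D.c x 1 0 : ℂ)

/-- the `J`-complex bilinear alternating form `η 0 + chi η 1` -/
def Om (D : Data) (x u v : R4) : ℂ :=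
  ((D.η 0).val x u v : ℂ) + chi D x * ((D.η 1).val x u v : ℂ)

/-- properties of `Om` -/
def Om_statement : Prop := ∀ D : Data,
  ContDiff ℝ ∞ (fun q : R4 × R4 × R4 => Om D q.1 q.2.1 q.2.2) ∧
  (∀ (n : Fin 4 → ℤ) (x u v : R4), Om D (fun i => x i + n i) u v = Om D x u v) ∧
  (∀ x u v w, Om D x u (v + w) = Om D x u v + Om D x u w) ∧
  (∀ x u v, Om D x u v = - Om D x v u) ∧
  (∀ x u v (c : ℂ), Om D x u (cm D x c v) = c * Om D x u v) ∧
  (∀ x u v, u ≠ 0 → Om D x u v = 0 → ∃ c : ℂ, v = cm D x c u)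

/-- The local part: near a critical point `z₀` of a locally injective curve `u`, for all small
circles: if the maps `ψ n` tend to `u` and miss `u`, and `ζ n z` is a point near `z` such that
`ψ n z - u (ζ n z)` is uniformly transversal to `u`, then the transversal component has negative
winding number. -/
def CEloc_statement : Prop := ∀ (D : Data) (u : ℂ → R4) (z₀ : ℂ), JH D u →
  (∃ z w, u z ≠ u w) → fderiv ℝ u z₀ 1 = 0 →
  (∃ ε > 0, ∀ z ∈ ball z₀ ε, ∀ w ∈ ball z₀ ε, u z = u w → z = w) →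
  ∀ᶠ r in 𝓝[>] (0 : ℝ), ∀ (ψ : ℕ → ℂ → R4), (∀ n, Continuous (ψ n)) →
    TendstoLocallyUniformly ψ u atTop → (∀ n z w, ψ n z ≠ u w) →
    ∀ (ζ : ℕ → ℂ → ℂ), (∀ n, ContinuousOn (ζ n) (sphere z₀ r)) →
    (∀ ε > 0, ∀ᶠ n in atTop, ∀ z ∈ sphere z₀ r, dist (ζ n z) z < ε) →
    (∃ c > 0, ∀ᶠ n in atTop, ∀ z ∈ sphere z₀ r, c * ‖ψ n z - u (ζ n z)‖ ≤
      ‖Om D (u (ζ n z)) (fderiv ℝ u (ζ n z) 1) (ψ n z - u (ζ n z))‖) →
    ∀ᶠ n in atTop, ∃ m : ℤ, m ≤ -1 ∧ HasWinding
      (fun z => Om D (u (ζ n z)) (fderiv ℝ u (ζ n z) 1) (ψ n z - u (ζ n z))) z₀ r m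

/-- The global part. -/
def CEglob_statement : Prop := Om_statement → CEloc_statement → P6_statement → TW_statement →
  CE_statement

end Vale.Agent.P247.H74
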