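import Vale.Agent.P247.H74.CE.Om

/-!
# CE: `Om` and `cm` as bilinear maps, frames
-/

open scoped ContDiff Topology
open Set MeasureTheory Filter Metric Asymptotics

noncomputable section

namespace Vale.Agent.P247.H74

namespace CE

/-! ## `cm` -/

/-- `cm` as a bilinear map -/
def cmB (D : Data) (x : R4) : ℂ →L[ℝ] R4 →L[ℝ] R4 :=
  Complex.reCLM.smulRight (ContinuousLinearMap.id ℝ R4) + Complex.imCLM.smulRight (D.J x)

theorem cmB_apply (D : Data) (x : R4) (w : ℂ) (v : R4) : cmB D x w v = cm D x w v := by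
  simp [cmB, cm]

theorem cmB_smooth (D : Data) : ContDiff ℝ ∞ (cmB D) := by
  unfold cmB
  refine contDiff_const.add ?_
  have h : (fun x => Complex.imCLM.smulRight (D.J x)) =
      fun x => (ContinuousLinearMap.smulRightL ℝ ℂ (R4 →L[ℝ] R4) Complex.imCLM) (D.J x) := by
    funext x
    rfl
  rw [h]
  exact (ContinuousLinearMap.contDiff _).comp D.J_smooth

theorem cm_add (D : Data) (x : R4) (w : ℂ) (v v' : R4) :
    cm D x w (v + v') = cm D x w v + cm D x w v' := by
  simp only [← cmB_apply, map_add]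

theorem cm_sub (D : Data) (x : R4) (w : ℂ) (v v' : R4) :
    cm D x w (v - v') = cm D x w v - cm D x w v' := by
  simp only [← cmB_apply, map_sub]

theorem cm_zero_right (D : Data) (x : R4) (w : ℂ) : cm D x w 0 = 0 := by
  simp only [← cmB_apply, map_zero]

theorem cm_zero (D : Data) (x : R4) (v : R4) : cm D x 0 v = 0 := by
  simp [cm]

theorem cm_one (D : Data) (x : R4) (v : R4) : cm D x 1 v = v := by
  simp [cm]

theorem add_cm (D : Data) (x : R4) (w w' : ℂ) (v : R4) :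
    cm D x (w + w') v = cm D x w v + cm D x w' v := by
  simp only [← cmB_apply, map_add, add_apply]

theorem sub_cm (D : Data) (x : R4) (w w' : ℂ) (v : R4) :
    cm D x (w - w') v = cm D x w v - cm D x w' v := by
  simp only [← cmB_apply, map_sub, sub_apply]

theorem cm_cm (D : Data) (x : R4) (w w' : ℂ) (v : R4) :
    cm D x w (cm D x w' v) = cm D x (w * w') v := by
  simp only [cm, map_add, map_smul, D.J_sq, Complex.mul_re, Complex.mul_im]
  module

theorem Om_self (D : Data) (x u : R4) : Om D x u u = 0 := by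
  have := Om_anti D x u u
  linear_combination this / 2

theorem cm_Om (D : Data) (x u v : R4) (c : ℂ) : Om D x (cm D x c u) v = c * Om D x u v := by
  rw [Om_anti, Om_cm, Om_anti D x v u]
  ring

theorem Om_par (D : Data) (x u : R4) (c c' : ℂ) : Om D x (cm D x c u) (cm D x c' u) = 0 := by
  rw [cm_Om, Om_cm, Om_self]
  ring

/-! ## `OmL` -/

/-- the value of the form as a bilinear map -/
def valL (a : CForm) (x : R4) : R4 →L[ℝ] R4 →L[ℝ] ℝ :=
  a.κ + fderiv ℝ a.lam x - (fderiv ℝ a.lam x).flip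

theorem valL_apply (a : CForm) (x u v : R4) : valL a x u v = a.val x u v := by
  simp [valL, CForm.val]

theorem valL_smooth (a : CForm) : ContDiff ℝ ∞ (valL a) := by
  have h1 : ContDiff ℝ ∞ (fderiv ℝ a.lam) := a.lam_smooth.fderiv_right (m := ∞) (by simp)
  unfold valL
  have h0 : ContDiff ℝ ∞ (fun B : R4 →L[ℝ] R4 →L[ℝ] ℝ => B.flip) :=
    LinearIsometryEquiv.contDiff (𝕜 := ℝ) (E := R4 →L[ℝ] R4 →L[ℝ] ℝ)
      (F := R4 →L[ℝ] R4 →L[ℝ] ℝ) (ContinuousLinearMap.flipₗᵢ ℝ R4 R4 ℝ)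
  have h2 : ContDiff ℝ ∞ (fun x => (fderiv ℝ a.lam x).flip) := h0.comp h1
  exact (contDiff_const.add h1).sub h2

theorem smul_aux {E F : Type*} [NormedAddCommGroup E] [NormedSpace ℝ E] [NormedAddCommGroup F]
    [NormedSpace ℝ F] {f : E → ℝ} {g : E → F} (hf : ContDiff ℝ ∞ f) (hg : ContDiff ℝ ∞ g) :
    ContDiff ℝ ∞ (fun x => f x • g x) := hf.smul hg

/-- from real to complex valued bilinear maps -/
def toC (L : ℝ →L[ℝ] ℂ) : (R4 →L[ℝ] R4 →L[ℝ] ℝ) →L[ℝ] (R4 →L[ℝ] R4 →L[ℝ] ℂ) :=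
  ContinuousLinearMap.compL ℝ R4 (R4 →L[ℝ] ℝ) (R4 →L[ℝ] ℂ)
    (ContinuousLinearMap.compL ℝ R4 ℝ ℂ L)

theorem toC_apply (L : ℝ →L[ℝ] ℂ) (B : R4 →L[ℝ] R4 →L[ℝ] ℝ) (u v : R4) :
    toC L B u v = L (B u v) := by
  simp [toC]

theorem toC_smooth (L : ℝ →L[ℝ] ℂ) :
    ContDiff ℝ ∞ (fun B : R4 →L[ℝ] R4 →L[ℝ] ℝ => toC L B) :=
  ContinuousLinearMap.contDiff (𝕜 := ℝ) (E := R4 →L[ℝ] R4 →L[ℝ] ℝ)
    (F := R4 →L[ℝ] R4 →L[ℝ] ℂ) (toC L)

/-- the map `t ↦ t i` -/
def ofI : ℝ →L[ℝ] ℂ := Complex.I • Complex.ofRealCLM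

/-- `Om` as a bilinear map -/
def OmL (D : Data) (x : R4) : R4 →L[ℝ] R4 →L[ℝ] ℂ :=
  toC Complex.ofRealCLM (valL (D.η 0) x + (chi D x).re • valL (D.η 1) x) +
    toC ofI ((chi D x).im • valL (D.η 1) x)

theorem OmL_apply (D : Data) (x u v : R4) : OmL D x u v = Om D x u v := by
  have h : chi D x = (chi D x).re + (chi D x).im * Complex.I := (Complex.re_add_im _).symm
  simp only [OmL, Om, toC_apply, valL_apply, add_apply, smul_apply, ofI, smul_eq_mul,
    Complex.ofRealCLM_apply, Complex.ofReal_add, Complex.ofReal_mul]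
  linear_combination -((D.η 1).val x u v : ℂ) * h

theorem OmL_smooth (D : Data) : ContDiff ℝ ∞ (OmL D) := by
  have hre : ContDiff ℝ ∞ (fun x => (chi D x).re) := Complex.reCLM.contDiff.comp (chi_smooth D)
  have him : ContDiff ℝ ∞ (fun x => (chi D x).im) := Complex.imCLM.contDiff.comp (chi_smooth D)
  exact ((toC_smooth Complex.ofRealCLM).comp
    ((valL_smooth _).add (smul_aux hre (valL_smooth _)))).add
      ((toC_smooth ofI).comp (smul_aux him (valL_smooth _)))

/-! ## frames -/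

theorem exists_frame (D : Data) (x a : R4) (ha : a ≠ 0) : ∃ b, Om D x a b ≠ 0 := by
  by_contra hcon
  push Not at hcon
  have hsurj : Function.Surjective ((cmB D x).flip a : ℂ →L[ℝ] R4) := by
    intro v
    obtain ⟨c, hc⟩ := Om_ker D x a v ha (hcon v)
    refine ⟨c, ?_⟩
    rw [ContinuousLinearMap.flip_apply, cmB_apply, hc]
  have h1 := LinearMap.finrank_le_finrank_of_surjective
    (f := ((cmB D x).flip a : ℂ →L[ℝ] R4).toLinearMap) hsurj
  rw [Complex.finrank_real_complex, Module.finrank_fin_fun] at h1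
  omega

/-- first coordinate -/
def p1 (D : Data) (x a b : R4) : R4 →L[ℝ] ℂ := (Om D x a b)⁻¹ • ((OmL D x).flip b)

/-- second coordinate -/
def p2 (D : Data) (x a b : R4) : R4 →L[ℝ] ℂ := (Om D x a b)⁻¹ • (OmL D x a)

theorem p1_apply (D : Data) (x a b v : R4) : p1 D x a b v = (Om D x a b)⁻¹ * Om D x v b := by
  simp [p1, OmL_apply]

theorem p2_apply (D : Data) (x a b v : R4) : p2 D x a b v = (Om D x a b)⁻¹ * Om D x a v := by
  simp [p2, OmL_apply]

theorem p1_a (D : Data) (x a b : R4) (h : Om D x a b ≠ 0) (w : ℂ) :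
    p1 D x a b (cm D x w a) = w := by
  rw [p1_apply, cm_Om]
  field_simp

theorem p1_b (D : Data) (x a b : R4) (w : ℂ) : p1 D x a b (cm D x w b) = 0 := by
  rw [p1_apply, cm_Om, Om_self]
  ring

theorem p2_a (D : Data) (x a b : R4) (w : ℂ) : p2 D x a b (cm D x w a) = 0 := by
  rw [p2_apply, Om_cm, Om_self]
  ring

theorem p2_b (D : Data) (x a b : R4) (h : Om D x a b ≠ 0) (w : ℂ) :
    p2 D x a b (cm D x w b) = w := by
  rw [p2_apply, Om_cm]
  field_simp

theorem frame_ne (D : Data) (x a b : R4) (h : Om D x a b ≠ 0) : a ≠ 0 := by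
  rintro rfl
  apply h
  rw [← OmL_apply, map_zero, zero_apply]

theorem frame_decomp (D : Data) (x a b : R4) (h : Om D x a b ≠ 0) (v : R4) :
    v = cm D x (p1 D x a b v) a + cm D x (p2 D x a b v) b := by
  have h1 : Om D x a (v - cm D x (p2 D x a b v) b) = 0 := by
    rw [← OmL_apply, map_sub, OmL_apply, OmL_apply, Om_cm, p2_apply]
    field_simp
    ring
  obtain ⟨c, hc⟩ := Om_ker D x a _ (frame_ne D x a b h) h1
  have h2 : v = cm D x c a + cm D x (p2 D x a b v) b := by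
    rw [← hc]
    abel
  have h3 : p1 D x a b v = c := by
    conv_lhs => rw [h2]
    rw [map_add, p1_a D x a b h, p1_b, add_zero]
  rw [h3]
  exact h2

/-! ## holomorphic curves -/

theorem fderiv_cm (D : Data) {u : ℂ → R4} (hu : JH D u) (z w : ℂ) :
    fderiv ℝ u z w = cm D (u z) w (fderiv ℝ u z 1) := by
  conv_lhs => rw [← Complex.re_add_im w]
  have h1 : ((w.re : ℂ) + w.im * Complex.I) = w.re • (1 : ℂ) + w.im • Complex.I := by simp
  rw [h1, map_add, map_smul, map_smul, hu.2 z]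
  rfl

end CE

end Vale.Agent.P247.H74
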