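import Mathlib

/-!
# CE: the product over the branches of a root
-/

open scoped ContDiff Topology
open Set Filter Metric Asymptotics

noncomputable section

namespace Vale.Agent.P247.H74.CE

open Polynomial

/-- the product over the branches, in the coordinate `c` -/
def Pt (U : ℂ → ℂ) (k : ℕ) (c y : ℂ) : ℂ := ∏ w ∈ nthRootsFinset k (1 : ℂ), (y - U (w * c))

/-- the product over the branches, in the coordinate `x = c ^ k` -/
def Ph (U : ℂ → ℂ) (k : ℕ) (x y : ℂ) : ℂ := Pt U k (x ^ ((k : ℂ)⁻¹)) y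

theorem norm_root {k : ℕ} (hk : k ≠ 0) {w : ℂ} (hw : w ^ k = 1) : ‖w‖ = 1 := by
  have h1 : ‖w‖ ^ k = 1 := by rw [← norm_pow, hw, norm_one]
  exact (pow_eq_one_iff_of_nonneg (norm_nonneg _) hk).1 h1

theorem Pt_inv {U : ℂ → ℂ} {k : ℕ} (hk : k ≠ 0) {c c' : ℂ} (h : c ^ k = c' ^ k) (y : ℂ) :
    Pt U k c y = Pt U k c' y := by
  have hk' : 0 < k := Nat.pos_of_ne_zero hk
  rcases eq_or_ne c 0 with rfl | hc
  · rw [zero_pow hk] at h
    have : c' = 0 := by
      have := h.symm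
      exact (pow_eq_zero_iff hk).1 this
    rw [this]
  · have hc' : c' ≠ 0 := by
      rintro rfl
      rw [zero_pow hk] at h
      exact hc ((pow_eq_zero_iff hk).1 h)
    have hq : (c' / c) ^ k = 1 := by
      rw [div_pow, h, div_self (pow_ne_zero _ hc')]
    have hq' : (c / c') ^ k = 1 := by
      rw [div_pow, h, div_self (pow_ne_zero _ hc')]
    unfold Pt
    refine Finset.prod_bij' (fun w _ => w * (c / c')) (fun w _ => w * (c' / c)) ?_ ?_ ?_ ?_ ?_
    · intro w hw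
      rw [mem_nthRootsFinset hk'] at hw ⊢
      rw [mul_pow, hw, hq', one_mul]
    · intro w hw
      rw [mem_nthRootsFinset hk'] at hw ⊢
      rw [mul_pow, hw, hq, one_mul]
    · intro w _
      field_simp
    · intro w _
      field_simp
    · intro w _
      congr 2
      field_simp

theorem Ph_eq {U : ℂ → ℂ} {k : ℕ} (hk : k ≠ 0) {c x : ℂ} (h : c ^ k = x) (y : ℂ) :
    Ph U k x y = Pt U k c y := by
  rw [Ph]
  refine Pt_inv hk ?_ y
  rw [h, Complex.cpow_nat_inv_pow _ hk]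

theorem continuousAt_Pt {U : ℂ → ℂ} {k : ℕ} (hk : k ≠ 0) {δ : ℝ}
    (hU : ContinuousOn U (ball 0 δ)) {c y : ℂ} (hc : c ∈ ball (0 : ℂ) δ) :
    ContinuousAt (fun q : ℂ × ℂ => Pt U k q.1 q.2) (c, y) := by
  have hk' : 0 < k := Nat.pos_of_ne_zero hk
  unfold Pt
  refine tendsto_finsetProd _ fun w hw => ?_
  rw [mem_nthRootsFinset hk'] at hw
  have h1 : w * c ∈ ball (0 : ℂ) δ := by
    rw [mem_ball_zero_iff] at hc ⊢
    rwa [norm_mul, norm_root hk hw, one_mul]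
  have h2 : ContinuousAt U (w * c) := hU.continuousAt (isOpen_ball.mem_nhds h1)
  have h3 : ContinuousAt (fun q : ℂ × ℂ => w * q.1) (c, y) := by fun_prop
  have h4 : ContinuousAt (fun q : ℂ × ℂ => U (w * q.1)) (c, y) :=
    ContinuousAt.comp (f := fun q : ℂ × ℂ => w * q.1) (g := U) h2 h3
  exact continuousAt_snd.sub h4

theorem norm_root_lt {k : ℕ} (_hk : k ≠ 0) {c x : ℂ} {δ : ℝ} (hδ : 0 < δ) (h : c ^ k = x)
    (hx : ‖x‖ < δ ^ k) : c ∈ ball (0 : ℂ) δ := by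
  rw [mem_ball_zero_iff]
  rw [← h, norm_pow] at hx
  exact lt_of_pow_lt_pow_left₀ k hδ.le hx

theorem continuousAt_Ph {U : ℂ → ℂ} {k : ℕ} (hk : k ≠ 0) {δ : ℝ} (hδ : 0 < δ)
    (hU : ContinuousOn U (ball 0 δ)) {x y : ℂ} (hx : ‖x‖ < δ ^ k) :
    ContinuousAt (fun q : ℂ × ℂ => Ph U k q.1 q.2) (x, y) := by
  have hk' : 0 < k := Nat.pos_of_ne_zero hk
  have hre : (0 : ℝ) < ((k : ℂ)⁻¹).re := by
    rw [← Complex.ofReal_natCast, ← Complex.ofReal_inv, Complex.ofReal_re]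
    positivity
  -- a continuous branch near `x`
  obtain ⟨g, hg1, hg2⟩ : ∃ g : ℂ → ℂ, ContinuousAt g x ∧ ∀ t, g t ^ k = t := by
    rcases eq_or_ne x 0 with rfl | hx0
    · refine ⟨fun t => t ^ ((k : ℂ)⁻¹), ?_, fun t => Complex.cpow_nat_inv_pow _ hk⟩
      have := Complex.continuousAt_cpow_const_of_re_pos (z := 0) (w := (k : ℂ)⁻¹)
        (Or.inl (by simp)) hre
      exact this
    · refine ⟨fun t => x ^ ((k : ℂ)⁻¹) * (t / x) ^ ((k : ℂ)⁻¹), ?_, fun t => ?_⟩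
      · refine continuousAt_const.mul ?_
        have h1 : ContinuousAt (fun t : ℂ => t ^ ((k : ℂ)⁻¹)) (x / x) := by
          rw [div_self hx0]
          exact continuousAt_cpow_const Complex.one_mem_slitPlane
        exact ContinuousAt.comp (f := fun t => t / x) h1 (by fun_prop)
      · rw [mul_pow, Complex.cpow_nat_inv_pow _ hk, Complex.cpow_nat_inv_pow _ hk]
        field_simp
  have h1 : (fun q : ℂ × ℂ => Ph U k q.1 q.2) = fun q => Pt U k (g q.1) q.2 := by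
    funext q
    exact Ph_eq hk (hg2 q.1) q.2
  rw [h1]
  have h2 := continuousAt_Pt hk hU (y := y) (norm_root_lt hk hδ (hg2 x) hx)
  have h3 : ContinuousAt (fun q : ℂ × ℂ => (g q.1, q.2)) (x, y) :=
    (ContinuousAt.comp (f := Prod.fst) (g := g) (x := (x, y)) hg1 continuousAt_fst).prodMk
      continuousAt_snd
  exact ContinuousAt.comp (f := fun q : ℂ × ℂ => (g q.1, q.2))
    (g := fun q : ℂ × ℂ => Pt U k q.1 q.2) h2 h3

theorem Ph_zero {U : ℂ → ℂ} {k : ℕ} (hk : k ≠ 0) {x y : ℂ} (h : Ph U k x y = 0) :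
    ∃ c, c ^ k = x ∧ y = U c := by
  rw [Ph, Pt, Finset.prod_eq_zero_iff] at h
  obtain ⟨w, hw, h1⟩ := h
  rw [mem_nthRootsFinset (Nat.pos_of_ne_zero hk)] at hw
  refine ⟨w * x ^ ((k : ℂ)⁻¹), ?_, by linear_combination h1⟩
  rw [mul_pow, hw, Complex.cpow_nat_inv_pow _ hk, one_mul]

theorem Pt_split (U : ℂ → ℂ) {k : ℕ} (hk : k ≠ 0) (c y : ℂ) :
    Pt U k c y = (y - U c) * ∏ w ∈ (nthRootsFinset k (1 : ℂ)).erase 1, (y - U (w * c)) := by
  rw [Pt, ← Finset.mul_prod_erase _ _ (one_mem_nthRootsFinset (Nat.pos_of_ne_zero hk)), one_mul]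

theorem card_roots {k : ℕ} (hk : k ≠ 0) : ((nthRootsFinset k (1 : ℂ)).erase 1).card = k - 1 := by
  rw [Finset.card_erase_of_mem (one_mem_nthRootsFinset (Nat.pos_of_ne_zero hk)),
    (Complex.isPrimitiveRoot_exp k hk).card_nthRootsFinset]

end Vale.Agent.P247.H74.CE
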