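import Vale.Agent.P247.H74.WWIND.Wind

/-!
# CE: joint convergence on compact sets, winding numbers of products
-/

open scoped ContDiff Topology
open Set MeasureTheory Filter Metric Asymptotics

noncomputable section

namespace Vale.Agent.P247.H74

namespace CE

/-- joint convergence on `K` -/
def UC {α : Type*} [TopologicalSpace α] (F : ℕ → ℂ → α) (f : ℂ → α) (K : Set ℂ) : Prop :=
  ∀ x ∈ K, Tendsto (fun y : ℕ × ℂ => F y.1 y.2) (atTop ×ˢ 𝓝[K] x) (𝓝 (f x))

/-- compactness -/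
theorem ev_of_compact {K : Set ℂ} (hK : IsCompact K) {P : ℕ → ℂ → Prop}
    (h : ∀ x ∈ K, ∀ᶠ y : ℕ × ℂ in atTop ×ˢ 𝓝[K] x, P y.1 y.2) :
    ∀ᶠ n in atTop, ∀ x ∈ K, P n x := by
  refine hK.induction_on (p := fun t => ∀ᶠ n in atTop, ∀ x ∈ t, P n x) ?_ ?_ ?_ ?_
  · simp
  · intro s t hst ht
    filter_upwards [ht] with n hn x hx using hn x (hst hx)
  · intro s t hs ht
    filter_upwards [hs, ht] with n hn1 hn2 x hx
    rcases hx with hx | hx
    · exact hn1 x hx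
    · exact hn2 x hx
  · intro x hx
    have := h x hx
    rw [eventually_prod_iff] at this
    obtain ⟨pa, ha, pb, hb, hab⟩ := this
    refine ⟨{y | pb y}, hb, ?_⟩
    filter_upwards [ha] with n hn y hy using hab hn hy

namespace UC

variable {α β γ : Type*} [TopologicalSpace α] [TopologicalSpace β] [TopologicalSpace γ]
variable {K : Set ℂ}

theorem const {f : ℂ → α} (hf : ContinuousOn f K) : UC (fun _ => f) f K := fun x hx =>
  (hf x hx).tendsto.comp tendsto_snd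

theorem comp {F : ℕ → ℂ → α} {f : ℂ → α} (h : UC F f K) {g : α → β}
    (hg : ∀ x ∈ K, ContinuousAt g (f x)) : UC (fun n z => g (F n z)) (fun z => g (f z)) K :=
  fun x hx => (hg x hx).tendsto.comp (h x hx)

theorem prod {F : ℕ → ℂ → α} {f : ℂ → α} {G : ℕ → ℂ → β} {g : ℂ → β} (h : UC F f K)
    (h' : UC G g K) : UC (fun n z => (F n z, G n z)) (fun z => (f z, g z)) K :=
  fun x hx => (h x hx).prodMk_nhds (h' x hx)

theorem mono {F : ℕ → ℂ → α} {f : ℂ → α} (h : UC F f K) {K' : Set ℂ} (hK : K' ⊆ K) :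
    UC F f K' :=
  fun x hx => (h x (hK hx)).mono_left (Filter.prod_mono le_rfl (nhdsWithin_mono _ hK))

theorem ev {F : ℕ → ℂ → α} {f : ℂ → α} (h : UC F f K) (hK : IsCompact K) {s : Set α}
    (hs : ∀ x ∈ K, s ∈ 𝓝 (f x)) : ∀ᶠ n in atTop, ∀ x ∈ K, F n x ∈ s :=
  ev_of_compact hK fun x hx => (h x hx).eventually (hs x hx)

theorem of_tlu {E : Type*} [PseudoMetricSpace E] {F : ℕ → ℂ → E} {f : ℂ → E}
    (h : TendstoLocallyUniformly F f atTop) (hf : Continuous f) (K : Set ℂ) : UC F f K := by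
  intro x _
  rw [Metric.tendsto_nhds]
  intro ε hε
  rw [Metric.tendstoLocallyUniformly_iff] at h
  obtain ⟨t, ht, h1⟩ := h (ε / 2) (half_pos hε) x
  have h2 : ∀ᶠ y in 𝓝 x, dist (f y) (f x) < ε / 2 :=
    hf.continuousAt.eventually (ball_mem_nhds _ (half_pos hε))
  have ht' : ∀ᶠ y in 𝓝[K] x, y ∈ t := nhdsWithin_le_nhds ht
  have h2' : ∀ᶠ y in 𝓝[K] x, dist (f y) (f x) < ε / 2 := nhdsWithin_le_nhds h2
  have h3 : ∀ᶠ y in 𝓝[K] x, y ∈ t ∧ dist (f y) (f x) < ε / 2 := ht'.and h2'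
  filter_upwards [h1.prod_mk h3] with y hy
  calc dist (F y.1 y.2) (f x) ≤ dist (F y.1 y.2) (f y.2) + dist (f y.2) (f x) :=
        dist_triangle _ _ _
    _ < ε := by
      have := hy.1 y.2 hy.2.1
      rw [dist_comm] at this
      linarith [hy.2.2]

theorem of_dist {E : Type*} [PseudoMetricSpace E] {F : ℕ → ℂ → E} {f : ℂ → E}
    (hf : ContinuousOn f K)
    (h : ∀ ε > 0, ∀ᶠ n in atTop, ∀ z ∈ K, dist (F n z) (f z) < ε) : UC F f K := by
  intro x hx
  rw [Metric.tendsto_nhds]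
  intro ε hε
  have h2 : ∀ᶠ y in 𝓝[K] x, dist (f y) (f x) < ε / 2 :=
    (hf x hx).eventually (ball_mem_nhds _ (half_pos hε))
  have h3 : ∀ᶠ y in 𝓝[K] x, y ∈ K := self_mem_nhdsWithin
  filter_upwards [(h (ε / 2) (half_pos hε)).prod_mk (h3.and h2)] with y hy
  calc dist (F y.1 y.2) (f x) ≤ dist (F y.1 y.2) (f y.2) + dist (f y.2) (f x) :=
        dist_triangle _ _ _
    _ < ε := by linarith [hy.2.2, hy.1 y.2 hy.2.1]

/-- winding numbers are stable -/
theorem wind {F : ℕ → ℂ → ℂ} {f : ℂ → ℂ} {c : ℂ} {r : ℝ} (hr : 0 < r) (h : UC F f (sphere c r))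
    (hf : ContinuousOn f (sphere c r)) (h0 : ∀ z ∈ sphere c r, f z ≠ 0)
    (hF : ∀ᶠ n in atTop, ContinuousOn (F n) (sphere c r)) {m : ℤ} (hm : HasWinding f c r m) :
    ∀ᶠ n in atTop, HasWinding (F n) c r m := by
  have h1 : UC (fun n z => (F n z, f z)) (fun z => (f z, f z)) (sphere c r) := h.prod (const hf)
  have h2 : ∀ᶠ n in atTop, ∀ z ∈ sphere c r, (F n z, f z) ∈ {q : ℂ × ℂ | ‖q.1 - q.2‖ < ‖q.2‖} := by
    refine h1.ev (isCompact_sphere c r) fun z hz => ?_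
    refine (isOpen_lt (by fun_prop) (by fun_prop)).mem_nhds ?_
    simp [h0 z hz]
  filter_upwards [h2, hF] with n h3 h4
  exact WWIND.W5 f (F n) c r m hr hf h4 h3 hm

end UC

/-- winding number of a finite product -/
theorem wind_prod {ι : Type*} (s : Finset ι) (f : ι → ℂ → ℂ) (m : ι → ℤ) {c : ℂ} {r : ℝ}
    (hr : 0 < r) (h : ∀ i ∈ s, HasWinding (f i) c r (m i)) :
    HasWinding (fun z => ∏ i ∈ s, f i z) c r (∑ i ∈ s, m i) := by
  classical
  induction s using Finset.induction_on with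
  | empty =>
    simp only [Finset.prod_empty, Finset.sum_empty]
    exact ⟨fun _ => 0, continuousOn_const, fun z _ => by simp⟩
  | insert i s hi ih =>
    simp only [Finset.prod_insert hi, Finset.sum_insert hi]
    exact WWIND.W2 _ _ c r _ _ hr (h i (Finset.mem_insert_self i s))
      (ih fun j hj => h j (Finset.mem_insert_of_mem hj))

theorem wind_congr {f g : ℂ → ℂ} {c : ℂ} {r : ℝ} {m : ℤ} (h : HasWinding f c r m)
    (hfg : ∀ z ∈ sphere c r, f z = g z) : HasWinding g c r m := by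
  obtain ⟨q, h1, h2⟩ := h
  exact ⟨q, h1, fun z hz => by rw [← hfg z hz, h2 z hz]⟩

theorem wind_ne {f : ℂ → ℂ} {c : ℂ} {r : ℝ} {m : ℤ} (hr : 0 < r) (h : HasWinding f c r m)
    {z : ℂ} (hz : z ∈ sphere c r) : f z ≠ 0 := by
  obtain ⟨q, h1, h2⟩ := h
  rw [h2 z hz]
  exact mul_ne_zero (zpow_ne_zero _ (WWIND.sub_ne hr hz)) (Complex.exp_ne_zero _)

theorem wind_neg {f : ℂ → ℂ} {c : ℂ} {r : ℝ} {m : ℤ} (hr : 0 < r) (h : HasWinding f c r m) :
    HasWinding (fun z => - f z) c r m := by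
  have h1 : HasWinding (fun _ => (-1 : ℂ)) c r 0 :=
    WWIND.W3 _ c r hr continuousOn_const (fun _ _ => by norm_num)
  have := WWIND.W2 _ _ c r _ _ hr h1 h
  rw [zero_add] at this
  exact wind_congr this fun z _ => by ring

theorem wind_smul {f : ℂ → ℂ} {c a : ℂ} {r : ℝ} {m : ℤ} (ha : a ≠ 0) (hr : 0 < r)
    (h : HasWinding f c r m) : HasWinding (fun z => a * f z) c r m := by
  have h1 : HasWinding (fun _ => a) c r 0 :=
    WWIND.W3 _ c r hr continuousOn_const (fun _ _ => ha)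
  have := WWIND.W2 _ _ c r _ _ hr h1 h
  rwa [zero_add] at this

end CE

end Vale.Agent.P247.H74
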