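import Vale.Agent.P247.H74.CE.Lb
import Vale.Agent.P247.H74.CE.Uc
import Vale.Agent.P247.H74.CE.Roots

/-!
# CE, local part: the winding number of the transversal component along the curve
-/

open scoped ContDiff Topology
open Set MeasureTheory Filter Metric Asymptotics

noncomputable section

namespace Vale.Agent.P247.H74

namespace CE

open Polynomial

/-- eventually for small closed discs -/
theorem ev_closedBall {P : ℂ → Prop} (h : ∀ᶠ z in 𝓝 (0 : ℂ), P z) :
    ∀ᶠ r in 𝓝[>] (0 : ℝ), ∀ z ∈ closedBall (0 : ℂ) r, P z := by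
  obtain ⟨ε, hε, h1⟩ := Metric.eventually_nhds_iff_ball.1 h
  have h2 : Ioo (0 : ℝ) ε ∈ 𝓝[>] (0 : ℝ) := Ioo_mem_nhdsGT hε
  filter_upwards [h2] with r hr z hz
  exact h1 z (closedBall_subset_ball hr.2 hz)

theorem ev_sphere {P : ℂ → Prop} (h : ∀ᶠ z in 𝓝[≠] (0 : ℂ), P z) :
    ∀ᶠ r in 𝓝[>] (0 : ℝ), ∀ z ∈ sphere (0 : ℂ) r, P z := by
  rw [eventually_nhdsWithin_iff] at h
  filter_upwards [ev_closedBall h, self_mem_nhdsWithin] with r h1 h2 z hz
  refine h1 z (sphere_subset_closedBall hz) ?_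
  intro h0
  have h3 : z = 0 := h0
  have h4 : (0 : ℝ) < r := h2
  rw [h3, mem_sphere, dist_self] at hz
  linarith

/-- the second coordinate along the curve -/
def U2 (D : Data) (u : ℂ → R4) (a b : R4) (ξ : ℂ → ℂ) (c : ℂ) : ℂ :=
  p2 D (u 0) a b (u (ξ c) - u 0)

namespace Inv

variable {D : Data} {u : ℂ → R4} {k : ℕ} {a b : R4} {ξ : ℂ → ℂ} {δ : ℝ}

theorem U2_cont (hi : Inv D u k a b ξ δ) (h : Lead D u k a b) :
    ContinuousOn (U2 D u a b ξ) (ball 0 δ) := by
  have h1 : ContinuousOn (fun c => u (ξ c)) (ball 0 δ) := h.cont.comp_continuousOn hi.c1.continuousOn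
  exact (p2 D (u 0) a b).continuous.comp_continuousOn (h1.sub continuousOn_const)

theorem zt_cont (h : Lead D u k a b) :
    ∀ᶠ z in 𝓝 (0 : ℂ), ContinuousAt (Lead.zt D u k a b) z :=
  (h.zt_c1.1.eventually (by simp)).mono fun _ hz => hz.continuousAt

theorem nw_eq (w z : ℂ) : p2 D (u 0) a b (u z - u 0) -
    U2 D u a b ξ (w * Lead.zt D u k a b z) = - nw D u k a b ξ w z := by
  rw [U2, nw, ← map_sub, ← map_neg]
  congr 1
  simp only [sg]
  abel

/-- the winding number of the transversal component along the curve -/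
theorem Lc (hi : Inv D u k a b ξ δ) (h : Lead D u k a b)
    (hinj : ∃ ε > 0, ∀ z ∈ ball (0 : ℂ) ε, ∀ w ∈ ball (0 : ℂ) ε, u z = u w → z = w) :
    ∀ᶠ r in 𝓝[>] (0 : ℝ), ∀ ψ : ℕ → ℂ → R4, (∀ n, Continuous (ψ n)) →
      TendstoLocallyUniformly ψ u atTop → (∀ n z w, ψ n z ≠ u w) →
      ∃ M : ℤ, ((k : ℤ) - 1) * (k + 1) ≤ M ∧ ∃ c : ℕ → ℂ → ℂ,
        UC c (Lead.zt D u k a b) (sphere 0 r) ∧ ∀ᶠ n in atTop,
          ContinuousOn (c n) (sphere 0 r) ∧ (∀ z ∈ sphere (0 : ℂ) r, c n z ∈ ball (0 : ℂ) δ) ∧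
          (∀ z ∈ sphere (0 : ℂ) r, c n z ^ k = p1 D (u 0) a b (ψ n z - u 0)) ∧
          HasWinding (fun z => p2 D (u 0) a b (ψ n z - u 0) - U2 D u a b ξ (c n z)) 0 r (-M) := by
  classical
  have hk := h.k0
  have hkp : 0 < k := Nat.pos_of_ne_zero hk
  set zt := Lead.zt D u k a b with hzt
  set R := (nthRootsFinset k (1 : ℂ)).erase 1 with hR
  have hRm : ∀ w ∈ R, w ^ k = 1 ∧ w ≠ 1 := by
    intro w hw
    rw [hR, Finset.mem_erase, mem_nthRootsFinset hkp] at hw
    exact ⟨hw.2, hw.1⟩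
  have hexp : ∀ w : ℂ, ∃ m : ℕ, w ∈ R → (k + 1 ≤ m ∧
      ∀ᶠ r in 𝓝[>] (0 : ℝ), HasWinding (nw D u k a b ξ w) 0 r m) := by
    intro w
    by_cases hw : w ∈ R
    · obtain ⟨m, A, hm, hA, ho⟩ := hi.nw_exp h hinj (hRm w hw).1 (hRm w hw).2
      refine ⟨m, fun _ => ⟨hm, ?_⟩⟩
      have hw0 : w ≠ 0 := by
        rintro rfl
        have := (hRm 0 hw).1
        rw [zero_pow hk] at this
        exact zero_ne_one this
      refine WWIND.W6 _ 0 A (m : ℤ) hA ?_ ?_
      · exact (hi.nw_cl h hw0).c1.mono fun z hz => hz.continuousAt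
      · simpa using ho
    · exact ⟨0, fun h' => absurd h' hw⟩
  choose m hm using hexp
  have hwind : ∀ᶠ r in 𝓝[>] (0 : ℝ), ∀ w ∈ R, HasWinding (nw D u k a b ξ w) 0 r (m w) := by
    rw [Filter.eventually_all_finset]
    exact fun w hw => (hm w hw).2
  have e1 : ∀ᶠ r in 𝓝[>] (0 : ℝ), ∀ z ∈ closedBall (0 : ℂ) r, zt z ∈ ball (0 : ℂ) δ :=
    ev_closedBall (zt_small h hi.pos)
  have e2 : ∀ᶠ r in 𝓝[>] (0 : ℝ), ∀ z ∈ closedBall (0 : ℂ) r, ContinuousAt zt z :=
    ev_closedBall (zt_cont h)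
  have e3 : ∀ᶠ r in 𝓝[>] (0 : ℝ), ∀ z ∈ sphere (0 : ℂ) r, zt z ≠ 0 := ev_sphere hi.zt_ne
  filter_upwards [hwind, e1, e2, e3, self_mem_nhdsWithin] with r hwind e1 e2 e3 hr0 ψ hψ hlim hdisj
  have hr : (0 : ℝ) < r := hr0
  set S := sphere (0 : ℂ) r with hS
  have hSc : IsCompact S := isCompact_sphere 0 r
  have hSB : S ⊆ closedBall (0 : ℂ) r := sphere_subset_closedBall
  have hUc := hi.U2_cont h
  set U := U2 D u a b ξ with hU
  set X : ℕ → ℂ → ℂ := fun n z => p1 D (u 0) a b (ψ n z - u 0) with hX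
  set Y : ℕ → ℂ → ℂ := fun n z => p2 D (u 0) a b (ψ n z - u 0) with hY
  have hψU : UC ψ u (closedBall 0 r) := UC.of_tlu hlim h.cont _
  have hXc : ∀ n, Continuous (X n) := fun n =>
    (p1 D (u 0) a b).continuous.comp ((hψ n).sub continuous_const)
  have hYc : ∀ n, Continuous (Y n) := fun n =>
    (p2 D (u 0) a b).continuous.comp ((hψ n).sub continuous_const)
  have hXU : UC X (fun z => zt z ^ k) (closedBall 0 r) := by
    have h1 := hψU.comp (g := fun x => p1 D (u 0) a b (x - u 0))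
      (fun x _ => by fun_prop)
    intro x hx
    have h2 := h1 x hx
    have h3 : zt x ^ k = p1 D (u 0) a b (u x - u 0) := h.zt_pow x
    simp only [h3]
    exact h2
  have hYU : UC Y (fun z => p2 D (u 0) a b (u z - u 0)) (closedBall 0 r) :=
    hψU.comp (g := fun x => p2 D (u 0) a b (x - u 0)) (fun x _ => by fun_prop)
  -- the root
  set c : ℕ → ℂ → ℂ := fun n z => zt z * (X n z / zt z ^ k) ^ ((k : ℂ)⁻¹) with hc
  have hztS : ContinuousOn zt S := fun z hz => (e2 z (hSB hz)).continuousWithinAt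
  have hq : UC (fun n z => X n z / zt z ^ k) (fun _ => 1) S := by
    have h1 := (hXU.mono hSB).prod (UC.const hztS)
    intro x hx
    have h2 : ContinuousAt (fun p : ℂ × ℂ => p.1 / p.2 ^ k) (zt x ^ k, zt x) := by
      refine ContinuousAt.div (by fun_prop) (by fun_prop) ?_
      exact pow_ne_zero k (e3 x hx)
    have h3 := h2.tendsto.comp (h1 x hx)
    have h4 : zt x ^ k / zt x ^ k = 1 := div_self (pow_ne_zero k (e3 x hx))
    simp only [h4] at h3
    exact h3
  have hcU : UC c zt S := by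
    have h1 := hq.prod (UC.const hztS)
    intro x hx
    have h2 : ContinuousAt (fun p : ℂ × ℂ => p.2 * p.1 ^ ((k : ℂ)⁻¹)) ((1 : ℂ), zt x) := by
      refine continuousAt_snd.mul ?_
      have h3 : ContinuousAt (fun t : ℂ => t ^ ((k : ℂ)⁻¹)) ((1 : ℂ), zt x).1 :=
        continuousAt_cpow_const Complex.one_mem_slitPlane
      exact ContinuousAt.comp (f := Prod.fst) (x := ((1 : ℂ), zt x)) h3 continuousAt_fst
    have h3 := h2.tendsto.comp (h1 x hx)
    simp only [Complex.one_cpow, mul_one] at h3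
    exact h3
  have hslit : ∀ᶠ n in atTop, ∀ z ∈ S, X n z / zt z ^ k ∈ Complex.slitPlane :=
    hq.ev hSc fun x _ => Complex.isOpen_slitPlane.mem_nhds Complex.one_mem_slitPlane
  have hcC : ∀ᶠ n in atTop, ContinuousOn (c n) S := by
    filter_upwards [hslit] with n hn
    refine hztS.mul ?_
    have h1 : ContinuousOn (fun z => X n z / zt z ^ k) S :=
      (hXc n).continuousOn.div (hztS.pow k) fun z hz => pow_ne_zero k (e3 z hz)
    intro z hz
    exact ContinuousAt.comp_continuousWithinAt (f := fun z => X n z / zt z ^ k)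
      (g := fun t : ℂ => t ^ ((k : ℂ)⁻¹)) (continuousAt_cpow_const (hn z hz)) (h1 z hz)
  have hcB : ∀ᶠ n in atTop, ∀ z ∈ S, c n z ∈ ball (0 : ℂ) δ :=
    hcU.ev hSc fun x hx => isOpen_ball.mem_nhds (e1 x (hSB hx))
  have hck : ∀ n, ∀ z ∈ S, c n z ^ k = X n z := by
    intro n z hz
    have h1 := pow_ne_zero k (e3 z hz)
    simp only [hc]
    rw [mul_pow, Complex.cpow_nat_inv_pow _ hk]
    field_simp
  -- the other factors
  have hfac : ∀ᶠ n in atTop, ∀ w ∈ R, HasWinding (fun z => Y n z - U (w * c n z)) 0 r (m w) := by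
    rw [Filter.eventually_all_finset]
    intro w hw
    have hwn : ‖w‖ = 1 := norm_root hk (hRm w hw).1
    have hwb : ∀ t ∈ ball (0 : ℂ) δ, w * t ∈ ball (0 : ℂ) δ := by
      intro t ht
      rw [mem_ball_zero_iff] at ht ⊢
      rwa [norm_mul, hwn, one_mul]
    have h1 : UC (fun n z => Y n z - U (w * c n z)) (fun z => - nw D u k a b ξ w z) S := by
      have h2 := (hYU.mono hSB).prod hcU
      intro x hx
      have h3 : ContinuousAt (fun p : ℂ × ℂ => p.1 - U (w * p.2))
          (p2 D (u 0) a b (u x - u 0), zt x) := by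
        have h4 : ContinuousAt U (w * zt x) :=
          hUc.continuousAt (isOpen_ball.mem_nhds (hwb _ (e1 x (hSB hx))))
        have h5 : ContinuousAt (fun p : ℂ × ℂ => w * p.2) (p2 D (u 0) a b (u x - u 0), zt x) := by
          fun_prop
        exact continuousAt_fst.sub (ContinuousAt.comp (f := fun p : ℂ × ℂ => w * p.2)
          (g := U) (x := (p2 D (u 0) a b (u x - u 0), zt x)) h4 h5)
      have h4 := h3.tendsto.comp (h2 x hx)
      have h5 := nw_eq (D := D) (u := u) (k := k) (a := a) (b := b) (ξ := ξ) w x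
      simp only []
      rw [← h5]
      exact h4
    have h2 : HasWinding (fun z => - nw D u k a b ξ w z) 0 r (m w) := wind_neg hr (hwind w hw)
    refine h1.wind hr ?_ (fun z hz => wind_ne hr h2 hz) ?_ h2
    · have h3 : ContinuousOn (fun z => p2 D (u 0) a b (u z - u 0) - U (w * zt z)) S := by
        refine ContinuousOn.sub ?_ ?_
        · exact ((p2 D (u 0) a b).continuous.comp (h.cont.sub continuous_const)).continuousOn
        · exact hUc.comp (continuousOn_const.mul hztS) fun z hz => hwb _ (e1 z (hSB hz))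
      exact h3.congr fun z _ => (nw_eq w z).symm
    · filter_upwards [hcC, hcB] with n h3 h4
      exact (hYc n).continuousOn.sub
        (hUc.comp (continuousOn_const.mul h3) fun z hz => hwb _ (h4 z hz))
  -- the product
  have hXB : ∀ᶠ n in atTop, ∀ z ∈ closedBall (0 : ℂ) r, X n z ∈ {x : ℂ | ‖x‖ < δ ^ k} := by
    refine hXU.ev (isCompact_closedBall 0 r) fun x hx => ?_
    refine (isOpen_lt continuous_norm continuous_const).mem_nhds ?_
    have h1 := e1 x hx
    rw [mem_ball_zero_iff] at h1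
    simp only [mem_ofPred_eq, norm_pow]
    exact pow_lt_pow_left₀ h1 (norm_nonneg _) hk
  have hprod : ∀ᶠ n in atTop, ContinuousOn (fun z => Ph U k (X n z) (Y n z)) (closedBall 0 r) ∧
      ∀ z ∈ closedBall (0 : ℂ) r, Ph U k (X n z) (Y n z) ≠ 0 := by
    filter_upwards [hXB] with n hn
    constructor
    · intro z hz
      have h1 := continuousAt_Ph hk hi.pos hUc (y := Y n z) (hn z hz)
      have h2 : ContinuousAt (fun z => (X n z, Y n z)) z :=
        ((hXc n).prodMk (hYc n)).continuousAt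
      exact (ContinuousAt.comp (f := fun z => (X n z, Y n z)) h1 h2).continuousWithinAt
    · intro z hz h0
      obtain ⟨t, ht1, ht2⟩ := Ph_zero hk h0
      have ht : t ∈ ball (0 : ℂ) δ := norm_root_lt hk hi.pos ht1 (hn z hz)
      refine hdisj n z (ξ t) ?_
      have h1 := frame_decomp D (u 0) a b h.hab (ψ n z - u (ξ t))
      have h2 : p1 D (u 0) a b (ψ n z - u (ξ t)) = 0 := by
        have : ψ n z - u (ξ t) = (ψ n z - u 0) - (u (ξ t) - u 0) := by abel
        rw [this, map_sub, ← h.zt_pow, hi.right t ht, ht1]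
        exact sub_self _
      have h3 : p2 D (u 0) a b (ψ n z - u (ξ t)) = 0 := by
        have : ψ n z - u (ξ t) = (ψ n z - u 0) - (u (ξ t) - u 0) := by abel
        rw [this, map_sub]
        have h4 : p2 D (u 0) a b (ψ n z - u 0) = U2 D u a b ξ t := ht2
        rw [h4, U2, sub_self]
      rw [h2, h3, cm_zero, cm_zero, add_zero] at h1
      exact sub_eq_zero.1 h1
  refine ⟨∑ w ∈ R, (m w : ℤ), ?_, c, hcU, ?_⟩
  · have h1 : ∑ w ∈ R, ((k : ℤ) + 1) ≤ ∑ w ∈ R, (m w : ℤ) :=
      Finset.sum_le_sum fun w hw => by exact_mod_cast (hm w hw).1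
    rw [Finset.sum_const, card_roots hk, nsmul_eq_mul, Nat.cast_sub h.hk, Nat.cast_one] at h1
    exact h1
  · filter_upwards [hcC, hcB, hfac, hprod] with n h1 h2 h3 h4
    refine ⟨h1, h2, hck n, ?_⟩
    have h5 : HasWinding (fun z => Ph U k (X n z) (Y n z)) 0 r 0 := WWIND.W3 _ 0 r hr h4.1 h4.2
    have h6 : ∀ z ∈ S, Ph U k (X n z) (Y n z) =
        (Y n z - U (c n z)) * ∏ w ∈ R, (Y n z - U (w * c n z)) := by
      intro z hz
      rw [Ph_eq hk (hck n z hz), Pt_split U hk]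
    have h7 := wind_prod R (fun w z => Y n z - U (w * c n z)) (fun w => (m w : ℤ)) hr h3
    have h8 : ContinuousOn (fun z => Y n z - U (c n z)) S :=
      (hYc n).continuousOn.sub (hUc.comp h1 h2)
    have h9 : ∀ z ∈ S, Y n z - U (c n z) ≠ 0 := by
      intro z hz h0
      have := h4.2 z (hSB hz)
      rw [h6 z hz, h0, zero_mul] at this
      exact this rfl
    obtain ⟨m', hm'⟩ := WWIND.W4 _ 0 r hr h8 h9
    have h10 := WWIND.W2 _ _ 0 r _ _ hr hm' h7
    have h11 := WWIND.W1 _ 0 r _ _ hr (wind_congr h5 h6) h10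
    have h12 : m' = -∑ w ∈ R, (m w : ℤ) := by omega
    rw [← h12]
    exact hm'

end Inv

end CE

end Vale.Agent.P247.H74
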