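import Vale.Agent.P247.H74.CE.Sta

/-!
# CE: the complex bilinear form `Om`
-/

open scoped ContDiff Topology
open Set MeasureTheory Filter Metric Asymptotics

noncomputable section

namespace Vale.Agent.P247.H74

namespace CE

theorem val_add (a : CForm) (x u v w : R4) : a.val x u (v + w) = a.val x u v + a.val x u w := by
  simp only [CForm.val, map_add, add_apply]
  ring

theorem val_smul (a : CForm) (x u v : R4) (t : ℝ) : a.val x u (t • v) = t * a.val x u v := by
  simp only [CForm.val, map_smul, smul_apply, smul_eq_mul]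
  ring

theorem val_anti (a : CForm) (x u v : R4) : a.val x u v = - a.val x v u := by
  have h : a.κ u v = - a.κ v u := by
    have h1 := a.κ_self (u + v)
    simp only [map_add, add_apply, a.κ_self u, a.κ_self v, zero_add, add_zero] at h1
    linarith
  simp only [CForm.val, h]
  ring

theorem val_smooth (a : CForm) : ContDiff ℝ ∞ (fun q : R4 × R4 × R4 => a.val q.1 q.2.1 q.2.2) := by
  have h1 : ContDiff ℝ ∞ (fun q : R4 × R4 × R4 => fderiv ℝ a.lam q.1) :=
    (a.lam_smooth.fderiv_right (m := ∞) (by simp)).comp contDiff_fst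
  have hu : ContDiff ℝ ∞ (fun q : R4 × R4 × R4 => q.2.1) := contDiff_fst.comp contDiff_snd
  have hv : ContDiff ℝ ∞ (fun q : R4 × R4 × R4 => q.2.2) := contDiff_snd.comp contDiff_snd
  have h2 := ((h1.clm_apply hu).clm_apply hv)
  have h3 := ((h1.clm_apply hv).clm_apply hu)
  have h4 : ContDiff ℝ ∞ (fun q : R4 × R4 × R4 => a.κ q.2.1 q.2.2) :=
    (a.κ.contDiff.comp hu).clm_apply hv
  exact (h4.add h2).sub h3

theorem val_per (a : CForm) (n : Fin 4 → ℤ) (x u v : R4) :
    a.val (fun i => x i + n i) u v = a.val x u v := by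
  have h : fderiv ℝ a.lam (fun i => x i + n i) = fderiv ℝ a.lam x := by
    have h1 : (fun y : R4 => a.lam (y + fun i => (n i : ℝ))) = a.lam := by
      funext y
      exact a.lam_per n y
    have h2 := fderiv_comp_add_right (f := a.lam) (x := x) (fun i => (n i : ℝ)) (𝕜 := ℝ)
    rw [h1] at h2
    exact h2.symm
  simp only [CForm.val, h]

theorem c10_ne (D : Data) (x : R4) : D.c x 1 0 ≠ 0 := by
  intro h
  have h1 := D.c_sq x 0 0
  simp only [Fin.sum_univ_two, h, mul_zero, add_zero, if_true] at h1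
  nlinarith [mul_self_nonneg (D.c x 0 0)]

theorem c_tr (D : Data) (x : R4) : D.c x 1 1 = - D.c x 0 0 := by
  have h1 := D.c_sq x 1 0
  simp only [Fin.sum_univ_two, one_ne_zero, if_false] at h1
  have h2 : D.c x 1 0 * (D.c x 0 0 + D.c x 1 1) = 0 := by linarith
  have h3 := (mul_eq_zero.1 h2).resolve_left (c10_ne D x)
  linarith

theorem c_det (D : Data) (x : R4) : D.c x 0 0 * D.c x 0 0 + D.c x 0 1 * D.c x 1 0 = -1 := by
  have h1 := D.c_sq x 0 0
  simpa only [Fin.sum_univ_two, if_true] using h1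

theorem Om_add (D : Data) (x u v w : R4) : Om D x u (v + w) = Om D x u v + Om D x u w := by
  simp only [Om, val_add]
  push_cast
  ring

theorem Om_rsmul (D : Data) (x u v : R4) (t : ℝ) : Om D x u (t • v) = t * Om D x u v := by
  simp only [Om, val_smul]
  push_cast
  ring

theorem Om_anti (D : Data) (x u v : R4) : Om D x u v = - Om D x v u := by
  simp only [Om, val_anti _ x u v]
  push_cast
  ring

theorem Om_J (D : Data) (x u v : R4) : Om D x u (D.J x v) = Complex.I * Om D x u v := by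
  have h1 := D.η_J 0 x u v
  have h2 := D.η_J 1 x u v
  simp only [Fin.sum_univ_two] at h1 h2
  have h3 : (D.c x 1 0 : ℂ) ≠ 0 := by exact_mod_cast c10_ne D x
  have h4 : (D.c x 1 1 : ℂ) = - (D.c x 0 0 : ℂ) := by exact_mod_cast c_tr D x
  have h5 : (D.c x 0 0 : ℂ) * (D.c x 0 0 : ℂ) + (D.c x 0 1 : ℂ) * (D.c x 1 0 : ℂ) = -1 := by
    exact_mod_cast c_det D x
  simp only [Om, h1, h2]
  push_cast
  rw [h4]
  have e1 : (D.c x 0 0 : ℂ) + chi D x * (D.c x 1 0 : ℂ) = Complex.I := by
    rw [chi, div_mul_cancel₀ _ h3]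
    ring
  have e2 : (D.c x 0 1 : ℂ) - chi D x * (D.c x 0 0 : ℂ) = Complex.I * chi D x := by
    rw [chi]
    field_simp
    linear_combination h5 - Complex.I_mul_I
  linear_combination (((D.η 0).val x u v : ℝ) : ℂ) * e1 + (((D.η 1).val x u v : ℝ) : ℂ) * e2

theorem Om_cm (D : Data) (x u v : R4) (c : ℂ) : Om D x u (cm D x c v) = c * Om D x u v := by
  rw [cm, Om_add, Om_rsmul, Om_rsmul, Om_J]
  linear_combination Om D x u v * Complex.re_add_im c

theorem Om_ker (D : Data) (x u v : R4) (hu : u ≠ 0) (h : Om D x u v = 0) :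
    ∃ c : ℂ, v = cm D x c u := by
  have h3 : (D.c x 1 0) ≠ 0 := c10_ne D x
  have him := congrArg Complex.im h
  have hre := congrArg Complex.re h
  have hchi : (chi D x).im = 1 / D.c x 1 0 := by
    rw [chi, Complex.div_ofReal_im]
    simp
  simp only [Om, Complex.add_im, Complex.ofReal_im, zero_add, Complex.mul_im, Complex.ofReal_re,
    mul_zero, Complex.zero_im] at him
  rw [hchi] at him
  have h1 : (D.η 1).val x u v = 0 := by
    have : 1 / D.c x 1 0 ≠ 0 := one_div_ne_zero h3
    exact (mul_eq_zero.1 him).resolve_left this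
  simp only [Om, h1, Complex.ofReal_zero, mul_zero, add_zero, Complex.ofReal_re,
    Complex.zero_re] at hre
  obtain ⟨a, b, hab⟩ := D.nd x u v hu (fun j => by fin_cases j <;> simp [h1, hre])
  exact ⟨⟨a, b⟩, hab⟩

theorem chi_smooth (D : Data) : ContDiff ℝ ∞ (chi D) := by
  have h0 : ∀ i j, ContDiff ℝ ∞ (fun x => ((D.c x i j : ℝ) : ℂ)) := fun i j =>
    Complex.ofRealCLM.contDiff.comp (contDiff_pi.1 (contDiff_pi.1 D.c_smooth i) j)
  unfold chi
  simp only [div_eq_mul_inv]
  exact (contDiff_const.sub (h0 0 0)).mul ((h0 1 0).inv fun x => by exact_mod_cast c10_ne D x)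

end CE

/-- the properties of `Om` -/
theorem OmProps : Om_statement := by
  intro D
  refine ⟨?_, ?_, CE.Om_add D, CE.Om_anti D, CE.Om_cm D, CE.Om_ker D⟩
  · have h0 : ∀ j, ContDiff ℝ ∞ (fun q : R4 × R4 × R4 => (((D.η j).val q.1 q.2.1 q.2.2 : ℝ) : ℂ)) :=
      fun j => Complex.ofRealCLM.contDiff.comp (CE.val_smooth (D.η j))
    exact (h0 0).add (((CE.chi_smooth D).comp contDiff_fst).mul (h0 1))
  · intro n x u v
    simp only [Om, CE.val_per, chi, D.c_per]

end Vale.Agent.P247.H74
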