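import Mathlib

/-!
# CE: functions near the origin of `ℂ`, of order `m` together with the first derivative
-/

open scoped ContDiff Topology
open Set Filter Metric Asymptotics

noncomputable section

namespace Vale.Agent.P247.H74.CE

variable {E F G : Type*} [NormedAddCommGroup E] [NormedSpace ℝ E]
  [NormedAddCommGroup F] [NormedSpace ℝ F] [NormedAddCommGroup G] [NormedSpace ℝ G]

/-- `C¹` off the origin, of order `m` together with the derivative -/
structure Cl (m : ℤ) (f : ℂ → E) : Prop where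
  c1 : ∀ᶠ z in 𝓝[≠] (0 : ℂ), ContDiffAt ℝ 1 f z
  bd : f =O[𝓝[≠] 0] fun z : ℂ => ‖z‖ ^ m
  dbd : (fderiv ℝ f) =O[𝓝[≠] 0] fun z : ℂ => ‖z‖ ^ (m - 1)

theorem ne_ev : ∀ᶠ z in 𝓝[≠] (0 : ℂ), z ≠ 0 := self_mem_nhdsWithin

theorem small_ev : ∀ᶠ z in 𝓝[≠] (0 : ℂ), ‖z‖ < 1 := by
  have : ball (0 : ℂ) 1 ∈ 𝓝[≠] (0 : ℂ) := nhdsWithin_le_nhds (ball_mem_nhds 0 one_pos)
  filter_upwards [this] with z hz
  rwa [mem_ball_zero_iff] at hz

theorem zpow_isBigO {m m' : ℤ} (h : m' ≤ m) :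
    (fun z : ℂ => ‖z‖ ^ m) =O[𝓝[≠] 0] fun z : ℂ => ‖z‖ ^ m' := by
  refine IsBigO.of_bound 1 ?_
  filter_upwards [ne_ev, small_ev] with z hz hz1
  rw [one_mul, Real.norm_eq_abs, Real.norm_eq_abs, abs_of_nonneg (by positivity),
    abs_of_nonneg (by positivity)]
  exact zpow_le_zpow_right_of_le_one₀ (norm_pos_iff.2 hz) hz1.le h

theorem zpow_tendsto {m : ℤ} (h : 1 ≤ m) :
    Tendsto (fun z : ℂ => ‖z‖ ^ m) (𝓝[≠] 0) (𝓝 0) := by
  have h1 : Tendsto (fun z : ℂ => ‖z‖) (𝓝[≠] 0) (𝓝 0) := by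
    have := (continuous_norm.tendsto (0 : ℂ)).mono_left (nhdsWithin_le_nhds (s := {(0 : ℂ)}ᶜ))
    simpa using this
  have h2 : (fun z : ℂ => ‖z‖ ^ m) =O[𝓝[≠] 0] fun z : ℂ => ‖z‖ := by
    have := zpow_isBigO h
    simpa using this
  exact h2.trans_tendsto h1

namespace Cl

variable {m m' : ℤ}

theorem mono {f : ℂ → E} (hf : Cl m f) (h : m' ≤ m) : Cl m' f where
  c1 := hf.c1
  bd := hf.bd.trans (zpow_isBigO h)
  dbd := hf.dbd.trans (zpow_isBigO (by omega))

theorem diff {f : ℂ → E} (hf : Cl m f) : ∀ᶠ z in 𝓝[≠] (0 : ℂ), DifferentiableAt ℝ f z :=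
  hf.c1.mono fun _ hz => hz.differentiableAt (by simp)

theorem congr {f g : ℂ → E} (hf : Cl m f) (h : ∀ᶠ z in 𝓝[≠] (0 : ℂ), f z = g z) : Cl m g := by
  have h' : ∀ᶠ z in 𝓝[≠] (0 : ℂ), f =ᶠ[𝓝 z] g := by
    rw [eventually_nhdsWithin_iff] at h ⊢
    have h1 := h.eventually_nhds
    filter_upwards [h1] with z hz hz0
    have h2 : ∀ᶠ y in 𝓝 z, y ≠ (0 : ℂ) := isOpen_ne.mem_nhds hz0
    filter_upwards [hz, h2] with y hy hy0 using hy hy0
  refine ⟨?_, hf.bd.congr' h (EventuallyEq.refl _ _), ?_⟩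
  · filter_upwards [hf.c1, h'] with z hz hz' using hz.congr_of_eventuallyEq hz'.symm
  · refine hf.dbd.congr' ?_ (EventuallyEq.refl _ _)
    filter_upwards [h'] with z hz using hz.fderiv_eq

theorem add {f g : ℂ → E} (hf : Cl m f) (hg : Cl m g) : Cl m (fun z => f z + g z) where
  c1 := by filter_upwards [hf.c1, hg.c1] with z h1 h2 using h1.add h2
  bd := hf.bd.add hg.bd
  dbd := by
    refine (hf.dbd.add hg.dbd).congr' ?_ (EventuallyEq.refl _ _)
    filter_upwards [hf.diff, hg.diff] with z h1 h2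
    exact (fderiv_fun_add h1 h2).symm

theorem neg {f : ℂ → E} (hf : Cl m f) : Cl m (fun z => - f z) where
  c1 := by filter_upwards [hf.c1] with z h1 using h1.neg
  bd := hf.bd.neg_left
  dbd := by
    refine hf.dbd.neg_left.congr' ?_ (EventuallyEq.refl _ _)
    filter_upwards with z
    exact fderiv_fun_neg.symm

theorem sub {f g : ℂ → E} (hf : Cl m f) (hg : Cl m g) : Cl m (fun z => f z - g z) := by
  simpa only [sub_eq_add_neg] using hf.add hg.neg

theorem bil (B : E →L[ℝ] F →L[ℝ] G) {f : ℂ → E} {g : ℂ → F} (hf : Cl m f) (hg : Cl m' g) :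
    Cl (m + m') (fun z => B (f z) (g z)) where
  c1 := by
    filter_upwards [hf.c1, hg.c1] with z h1 h2
    exact (B.contDiff.contDiffAt.comp z h1).clm_apply h2
  bd := by
    have h1 : (fun z => B (f z) (g z)) =O[𝓝[≠] 0] fun z => ‖f z‖ * ‖g z‖ := by
      refine IsBigO.of_bound ‖B‖ (Eventually.of_forall fun z => ?_)
      rw [Real.norm_eq_abs, abs_of_nonneg (by positivity), ← mul_assoc]
      exact B.le_opNorm₂ _ _
    refine h1.trans ?_
    have h2 := hf.bd.norm_left.mul hg.bd.norm_left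
    refine h2.congr' (EventuallyEq.refl _ _) ?_
    filter_upwards [ne_ev] with z hz
    rw [zpow_add₀ (norm_ne_zero_iff.2 hz)]
  dbd := by
    have h1 : (fderiv ℝ fun z => B (f z) (g z)) =O[𝓝[≠] 0]
        fun z => ‖f z‖ * ‖fderiv ℝ g z‖ + ‖fderiv ℝ f z‖ * ‖g z‖ := by
      refine IsBigO.of_bound ‖B‖ ?_
      filter_upwards [hf.diff, hg.diff] with z h1 h2
      rw [(B.hasFDerivAt_of_bilinear h1.hasFDerivAt h2.hasFDerivAt).fderiv, Real.norm_eq_abs,
        abs_of_nonneg (by positivity)]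
      refine ContinuousLinearMap.opNorm_le_bound _ (by positivity) fun ξ => ?_
      simp only [add_apply, ContinuousLinearMap.precompR_apply, ContinuousLinearMap.precompL_apply]
      calc ‖B (f z) (fderiv ℝ g z ξ) + B (fderiv ℝ f z ξ) (g z)‖
          ≤ ‖B (f z) (fderiv ℝ g z ξ)‖ + ‖B (fderiv ℝ f z ξ) (g z)‖ := norm_add_le _ _
        _ ≤ ‖B‖ * ‖f z‖ * (‖fderiv ℝ g z‖ * ‖ξ‖) + ‖B‖ * (‖fderiv ℝ f z‖ * ‖ξ‖) * ‖g z‖ := by
            gcongr
            · exact (B.le_opNorm₂ _ _).trans (by gcongr; exact (fderiv ℝ g z).le_opNorm ξ)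
            · exact (B.le_opNorm₂ _ _).trans (by gcongr; exact (fderiv ℝ f z).le_opNorm ξ)
        _ = _ := by ring
    refine h1.trans ?_
    have h2 := hf.bd.norm_left.mul hg.dbd.norm_left
    have h3 := hf.dbd.norm_left.mul hg.bd.norm_left
    have e2 : (fun z => ‖f z‖ * ‖fderiv ℝ g z‖) =O[𝓝[≠] 0] fun z : ℂ => ‖z‖ ^ (m + m' - 1) := by
      refine h2.congr' (EventuallyEq.refl _ _) ?_
      filter_upwards [ne_ev] with z hz
      rw [← zpow_add₀ (norm_ne_zero_iff.2 hz)]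
      congr 1
      ring
    have e3 : (fun z => ‖fderiv ℝ f z‖ * ‖g z‖) =O[𝓝[≠] 0] fun z : ℂ => ‖z‖ ^ (m + m' - 1) := by
      refine h3.congr' (EventuallyEq.refl _ _) ?_
      filter_upwards [ne_ev] with z hz
      rw [← zpow_add₀ (norm_ne_zero_iff.2 hz)]
      congr 1
      ring
    exact e2.add e3

theorem clm (L : E →L[ℝ] F) {f : ℂ → E} (hf : Cl m f) : Cl m (fun z => L (f z)) where
  c1 := by
    filter_upwards [hf.c1] with z h1
    exact L.contDiff.contDiffAt.comp z h1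
  bd := (IsBigO.of_bound ‖L‖ (Eventually.of_forall fun z => L.le_opNorm _)).trans hf.bd
  dbd := by
    have h1 : (fderiv ℝ fun z => L (f z)) =O[𝓝[≠] 0] fderiv ℝ f := by
      refine IsBigO.of_bound ‖L‖ ?_
      filter_upwards [hf.diff] with z h1
      have h2 : fderiv ℝ (fun z => L (f z)) z = L.comp (fderiv ℝ f z) :=
        (L.hasFDerivAt.comp z h1.hasFDerivAt).fderiv
      rw [h2]
      exact L.opNorm_comp_le _
    exact h1.trans hf.dbd

theorem zpow (m : ℤ) : Cl m (fun z : ℂ => z ^ m) where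
  c1 := by
    filter_upwards [ne_ev] with z hz
    have h1 : DifferentiableOn ℂ (fun z : ℂ => z ^ m) {0}ᶜ := fun y hy =>
      (differentiableAt_zpow.2 (Or.inl hy)).differentiableWithinAt
    have h2 : ContDiffOn ℂ 1 (fun z : ℂ => z ^ m) {0}ᶜ := h1.contDiffOn isOpen_compl_singleton
    exact (h2.restrict_scalars ℝ).contDiffAt (isOpen_compl_singleton.mem_nhds hz)
  bd := by
    refine IsBigO.of_bound 1 (Eventually.of_forall fun z => ?_)
    rw [norm_zpow, norm_zpow, norm_norm, one_mul]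
  dbd := by
    refine IsBigO.of_bound |(m : ℝ)| ?_
    filter_upwards [ne_ev] with z hz
    have h1 := (hasDerivAt_zpow m z (Or.inl hz)).hasFDerivAt.restrictScalars ℝ
    rw [h1.fderiv]
    refine ContinuousLinearMap.opNorm_le_bound _ (by positivity) fun ξ => ?_
    simp only [ContinuousLinearMap.coe_restrictScalars', ContinuousLinearMap.toSpanSingleton_apply]
    rw [norm_smul, norm_mul, norm_zpow, norm_zpow, norm_norm, mul_comm]
    simp

theorem of_contDiffAt {f : ℂ → E} (hf : ContDiffAt ℝ 1 f 0) : Cl 0 f where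
  c1 := (hf.eventually (by simp)).filter_mono nhdsWithin_le_nhds
  bd := by
    simp only [zpow_zero]
    exact (hf.continuousAt.tendsto.mono_left nhdsWithin_le_nhds).isBigO_one ℝ
  dbd := by
    have h1 : ContinuousAt (fderiv ℝ f) 0 := hf.continuousAt_fderiv (by simp)
    have h2 : (fderiv ℝ f) =O[𝓝[≠] 0] fun z : ℂ => ‖z‖ ^ (0 : ℤ) := by
      simp only [zpow_zero]
      exact (h1.tendsto.mono_left nhdsWithin_le_nhds).isBigO_one ℝ
    exact h2.trans (zpow_isBigO (by norm_num))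

theorem of_contDiffAt_zero {f : ℂ → E} (hf : ContDiffAt ℝ 1 f 0) (h0 : f 0 = 0) : Cl 1 f where
  c1 := (hf.eventually (by simp)).filter_mono nhdsWithin_le_nhds
  bd := by
    have h1 := (hf.differentiableAt (by simp)).isBigO_sub
    rw [h0] at h1
    simp only [sub_zero] at h1
    have h2 := h1.norm_right.mono (nhdsWithin_le_nhds (s := {(0 : ℂ)}ᶜ))
    simpa using h2
  dbd := by
    have h1 : ContinuousAt (fderiv ℝ f) 0 := hf.continuousAt_fderiv (by simp)
    simp only [sub_self, zpow_zero]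
    exact (h1.tendsto.mono_left nhdsWithin_le_nhds).isBigO_one ℝ

theorem const (c : E) : Cl 0 (fun _ : ℂ => c) := of_contDiffAt contDiffAt_const

theorem tendsto {f : ℂ → E} (hf : Cl m f) (hm : 1 ≤ m) : Tendsto f (𝓝[≠] 0) (𝓝 0) :=
  hf.bd.trans_tendsto (zpow_tendsto hm)

/-- composition with a `C¹` function on the left -/
theorem left {x₀ : E} {Φ : E → F} (hΦ : ContDiffAt ℝ 1 Φ x₀) {f : ℂ → E}
    (hf : Cl m fun z => f z - x₀) (hm : 1 ≤ m) : Cl m (fun z => Φ (f z) - Φ x₀) := by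
  have hlim : Tendsto f (𝓝[≠] 0) (𝓝 x₀) := by
    have := (hf.tendsto hm).add_const x₀
    simpa using this
  have hΦe := hlim.eventually (hΦ.eventually (by simp))
  have hfc : ∀ᶠ z in 𝓝[≠] (0 : ℂ), ContDiffAt ℝ 1 f z := by
    filter_upwards [hf.c1] with z hz
    have := hz.add (contDiffAt_const (c := x₀))
    simpa using this
  refine ⟨?_, ?_, ?_⟩
  · filter_upwards [hΦe, hfc] with z h1 h2
    exact (h1.comp z h2).sub contDiffAt_const
  · have h1 := ((hΦ.differentiableAt (by simp)).isBigO_sub).comp_tendsto hlim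
    exact IsBigO.trans (f := fun z => Φ (f z) - Φ x₀) h1 hf.bd
  · have h1 : ContinuousAt (fderiv ℝ Φ) x₀ := hΦ.continuousAt_fderiv (by simp)
    have h2 : (fun z => fderiv ℝ Φ (f z)) =O[𝓝[≠] (0 : ℂ)] fun _ => (1 : ℝ) :=
      (h1.tendsto.comp hlim).isBigO_one ℝ
    have h3 : (fderiv ℝ fun z => Φ (f z) - Φ x₀) =O[𝓝[≠] 0]
        fun z => ‖fderiv ℝ Φ (f z)‖ * ‖fderiv ℝ (fun z => f z - x₀) z‖ := by
      refine IsBigO.of_bound 1 ?_
      filter_upwards [hΦe, hfc] with z e1 e2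
      have e3 : fderiv ℝ (fun z => Φ (f z) - Φ x₀) z = (fderiv ℝ Φ (f z)).comp (fderiv ℝ f z) :=
        (((e1.differentiableAt (by simp)).hasFDerivAt.comp z
          (e2.differentiableAt (by simp)).hasFDerivAt).sub_const _).fderiv
      have e4 : fderiv ℝ (fun z => f z - x₀) z = fderiv ℝ f z :=
        ((e2.differentiableAt (by simp)).hasFDerivAt.sub_const _).fderiv
      rw [e3, e4, Real.norm_eq_abs, abs_of_nonneg (by positivity), one_mul]
      exact ContinuousLinearMap.opNorm_comp_le _ _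
    refine h3.trans ((h2.norm_left.mul hf.dbd.norm_left).congr' (EventuallyEq.refl _ _) ?_)
    filter_upwards with z
    rw [one_mul]

/-- composition with a `C¹` function on the right -/
theorem right {f : ℂ → E} (hf : Cl m f) (hm : 1 ≤ m) {σ : ℂ → ℂ} (hσ : ContDiffAt ℝ 1 σ 0)
    (h0 : σ 0 = 0) (hne : ∀ᶠ z in 𝓝[≠] (0 : ℂ), σ z ≠ 0) : Cl m (fun z => f (σ z)) := by
  have hlim : Tendsto σ (𝓝[≠] 0) (𝓝[≠] 0) := by
    rw [tendsto_nhdsWithin_iff]
    refine ⟨?_, hne⟩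
    have := hσ.continuousAt.tendsto.mono_left (nhdsWithin_le_nhds (s := {(0 : ℂ)}ᶜ))
    rwa [h0] at this
  have hσO : σ =O[𝓝[≠] 0] fun z : ℂ => ‖z‖ ^ (1 : ℤ) := (of_contDiffAt_zero hσ h0).bd
  have hpow : ∀ n : ℤ, 0 ≤ n → (fun z => ‖σ z‖ ^ n) =O[𝓝[≠] 0] fun z : ℂ => ‖z‖ ^ n := by
    intro n hn
    obtain ⟨j, rfl⟩ := Int.eq_ofNat_of_zero_le hn
    have := hσO.norm_left.pow j
    simpa [zpow_natCast, zpow_one] using this
  have hσc := (hσ.eventually (by simp)).filter_mono (nhdsWithin_le_nhds (s := {(0 : ℂ)}ᶜ))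
  refine ⟨?_, ?_, ?_⟩
  · filter_upwards [hlim.eventually hf.c1, hσc] with z h1 h2
    exact h1.comp z h2
  · exact (hf.bd.comp_tendsto hlim).trans (hpow m (by omega))
  · have h1 : ContinuousAt (fderiv ℝ σ) 0 := hσ.continuousAt_fderiv (by simp)
    have h2 : (fderiv ℝ σ) =O[𝓝[≠] (0 : ℂ)] fun _ => (1 : ℝ) :=
      (h1.tendsto.mono_left nhdsWithin_le_nhds).isBigO_one ℝ
    have h3 : (fderiv ℝ fun z => f (σ z)) =O[𝓝[≠] 0]
        fun z => ‖fderiv ℝ f (σ z)‖ * ‖fderiv ℝ σ z‖ := by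
      refine IsBigO.of_bound 1 ?_
      filter_upwards [hlim.eventually hf.diff, hσc] with z e1 e2
      have e3 : fderiv ℝ (fun z => f (σ z)) z = (fderiv ℝ f (σ z)).comp (fderiv ℝ σ z) :=
        (e1.hasFDerivAt.comp z (e2.differentiableAt (by simp)).hasFDerivAt).fderiv
      rw [e3, Real.norm_eq_abs, abs_of_nonneg (by positivity), one_mul]
      exact ContinuousLinearMap.opNorm_comp_le _ _
    have h4 : (fun z => ‖fderiv ℝ f (σ z)‖) =O[𝓝[≠] 0] fun z : ℂ => ‖z‖ ^ (m - 1) :=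
      (hf.dbd.norm_left.comp_tendsto hlim).trans (hpow (m - 1) (by omega))
    refine h3.trans ((h4.mul h2.norm_left).congr' (EventuallyEq.refl _ _) ?_)
    filter_upwards with z
    rw [mul_one]

/-- functions of order two are `C¹` at the origin -/
theorem contDiffAt {f : ℂ → E} (hf : Cl 2 f) (h0 : f 0 = 0) :
    ContDiffAt ℝ 1 f 0 ∧ HasFDerivAt f (0 : ℂ →L[ℝ] E) 0 := by
  have hd0 : HasFDerivAt f (0 : ℂ →L[ℝ] E) 0 := by
    rw [hasFDerivAt_iff_isLittleO_nhds_zero]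
    simp only [zero_add, h0, sub_zero, zero_apply]
    have h1 : f =O[𝓝[≠] 0] fun z : ℂ => ‖z‖ ^ (2 : ℤ) := hf.bd
    have h2 : (fun z : ℂ => ‖z‖ ^ (2 : ℤ)) =o[𝓝[≠] 0] fun z : ℂ => z := by
      rw [isLittleO_iff]
      intro c hc
      have h3 : ball (0 : ℂ) c ∈ 𝓝[≠] (0 : ℂ) := nhdsWithin_le_nhds (ball_mem_nhds 0 hc)
      filter_upwards [h3] with z hz
      rw [mem_ball_zero_iff] at hz
      rw [norm_zpow, norm_norm, zpow_ofNat, sq]
      gcongr
    have h4 := h1.trans_isLittleO h2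
    rw [isLittleO_iff] at h4 ⊢
    intro c hc
    have h5 := h4 hc
    rw [eventually_nhdsWithin_iff] at h5
    filter_upwards [h5] with z hz
    by_cases hz0 : z = 0
    · rw [hz0, h0]; simp
    · exact hz hz0
  have hc0 : ContinuousAt (fderiv ℝ f) 0 := by
    rw [continuousAt_iff_punctured_nhds, hd0.fderiv]
    have h1 : (fderiv ℝ f) =O[𝓝[≠] 0] fun z : ℂ => ‖z‖ ^ (1 : ℤ) := by
      have := hf.dbd
      norm_num at this ⊢
      exact this
    exact h1.trans_tendsto (zpow_tendsto le_rfl)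
  refine ⟨?_, hd0⟩
  rw [contDiffAt_one_iff]
  have h1 := hf.c1
  rw [eventually_nhdsWithin_iff] at h1
  refine ⟨fderiv ℝ f, {z | z ≠ 0 → ContDiffAt ℝ 1 f z}, h1, ?_, ?_⟩
  · intro z hz
    by_cases hz0 : z = 0
    · rw [hz0]; exact hc0.continuousWithinAt
    · exact ((hz hz0).continuousAt_fderiv (by simp)).continuousWithinAt
  · intro z hz
    by_cases hz0 : z = 0
    · rw [hz0, hd0.fderiv]; exact hd0
    · exact ((hz hz0).differentiableAt (by simp)).hasFDerivAt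

end Cl

end Vale.Agent.P247.H74.CE
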