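import Vale.Agent.P247.H74.CE.Sta
import Vale.Agent.P247.H74.WWIND.TW

/-!
# CE, global part: coordinates, periodicity, the Hermitian projection onto the tangent line
-/

open scoped ContDiff Topology
open Set MeasureTheory Filter Metric Asymptotics

noncomputable section

namespace Vale.Agent.P247.H74.CEG

open Vale.Agent.P247.H74

/-! ### Coordinates -/

theorem coord_apply (τ : ℂ) (hτ : 0 < τ.im) (p : P2) :
    coord τ ((p.1 : ℂ) + p.2 * τ) = p := by
  unfold coord
  have h1 : ((p.1 : ℂ) + p.2 * τ).im = p.2 * τ.im := by simp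
  have h2 : ((p.1 : ℂ) + p.2 * τ).re = p.1 + p.2 * τ.re := by simp
  rw [h1, h2]
  have h3 : p.2 * τ.im / τ.im = p.2 := by field_simp
  rw [h3]
  ext
  · simp; ring
  · rfl

theorem coord_eq (τ : ℂ) (hτ : 0 < τ.im) (z : ℂ) :
    (((coord τ z).1 : ℝ) : ℂ) + ((coord τ z).2 : ℝ) * τ = z := by
  apply Complex.ext
  · simp [coord]
    ring
  · simp [coord]
    field_simp

/-- `coord τ` as a linear map -/
def coordL (τ : ℂ) : ℂ →L[ℝ] P2 :=
  (Complex.reCLM - (τ.re / τ.im) • Complex.imCLM).prod ((1 / τ.im) • Complex.imCLM)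

theorem coordL_apply (τ z : ℂ) : coordL τ z = coord τ z := by
  unfold coordL coord
  ext
  · simp
    ring
  · simp
    ring

theorem continuous_coord (τ : ℂ) : Continuous (coord τ) := by
  have : coord τ = coordL τ := by
    funext w
    exact (coordL_apply τ w).symm
  rw [this]
  exact (coordL τ).continuous

theorem coord_add (τ : ℂ) (hτ : 0 < τ.im) (m n : ℤ) (z : ℂ) :
    coord τ (z + m + n * τ) = ((coord τ z).1 + m, (coord τ z).2 + n) := by
  have h1 := coord_apply τ hτ ((coord τ z).1 + m, (coord τ z).2 + n)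
  rw [← h1]
  congr 1
  conv_lhs => rw [← coord_eq τ hτ z]
  push_cast
  ring

theorem contDiff_lin : ContDiff ℝ ∞ lin := by
  unfold lin
  refine contDiff_pi.2 fun i => ?_
  fin_cases i <;> simp <;> fun_prop

theorem lin_add (p : P2) (m n : ℤ) :
    lin (p.1 + m, p.2 + n) = lin p + (m : ℝ) • e 2 + (n : ℝ) • e 3 := by
  funext i
  simp only [Pi.add_apply, Pi.smul_apply, smul_eq_mul, lin, e]
  fin_cases i <;> simp

theorem contDiff_phi {f : P2 → R4} (hf : ContDiff ℝ ∞ f) : ContDiff ℝ ∞ (phi f) :=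
  contDiff_lin.add hf

theorem phi_add {f : P2 → R4} (hf : Per f) (p : P2) (m n : ℤ) :
    phi f (p.1 + m, p.2 + n) = phi f p + (m : ℝ) • e 2 + (n : ℝ) • e 3 := by
  unfold phi
  rw [hf, lin_add]
  abel

theorem hasFDerivAt_up {f : P2 → R4} (hf : ContDiff ℝ ∞ f) (τ z : ℂ) :
    HasFDerivAt (up f τ) ((fderiv ℝ (phi f) (coord τ z)).comp (coordL τ)) z := by
  have h1 : HasFDerivAt (fun z => coord τ z) (coordL τ) z := by
    have : (fun z => coord τ z) = coordL τ := by
      funext w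
      exact (coordL_apply τ w).symm
    rw [this]
    exact (coordL τ).hasFDerivAt
  exact ((contDiff_phi hf).differentiable (by simp) (coord τ z)).hasFDerivAt.comp z h1

theorem fderiv_up_one {f : P2 → R4} (hf : ContDiff ℝ ∞ f) (τ z : ℂ) :
    fderiv ℝ (up f τ) z 1 = ds (phi f) (coord τ z) := by
  rw [(hasFDerivAt_up hf τ z).fderiv]
  show fderiv ℝ (phi f) (coord τ z) (coordL τ 1) = _
  have : coordL τ 1 = (1, 0) := by
    rw [coordL_apply]
    simp [coord]
  rw [this]
  rfl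

theorem fderiv_up_I {f : P2 → R4} (hf : ContDiff ℝ ∞ f) (τ z : ℂ) (hτ : 0 < τ.im) :
    fderiv ℝ (up f τ) z Complex.I =
      (1 / τ.im) • (dt (phi f) (coord τ z) - τ.re • ds (phi f) (coord τ z)) := by
  rw [(hasFDerivAt_up hf τ z).fderiv]
  show fderiv ℝ (phi f) (coord τ z) (coordL τ Complex.I) = _
  have : coordL τ Complex.I = (1 / τ.im) • (((0 : ℝ), (1 : ℝ)) - τ.re • ((1 : ℝ), (0 : ℝ))) := by
    rw [coordL_apply]
    ext
    · simp [coord]
      field_simp
    · simp [coord]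
  rw [this, map_smul, map_sub, map_smul]
  rfl

theorem contDiff_up {f : P2 → R4} (hf : ContDiff ℝ ∞ f) (τ : ℂ) : ContDiff ℝ ∞ (up f τ) := by
  have h1 : up f τ = fun z => phi f (coordL τ z) := by
    funext z
    rw [coordL_apply]
    rfl
  rw [h1]
  exact (contDiff_phi hf).comp (coordL τ).contDiff

/-- a `J`-holomorphic torus in the complex coordinate -/
theorem JH_up {D : Data} {f : P2 → R4} {τ : ℂ} (h : JT D f τ) : JH D (up f τ) := by
  have hτ := h.im_pos
  refine ⟨contDiff_up h.smooth τ, fun z => ?_⟩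
  rw [fderiv_up_one h.smooth, fderiv_up_I h.smooth τ z hτ, h.eq (coord τ z)]
  rw [add_sub_cancel_left, smul_smul, one_div_mul_cancel hτ.ne', one_smul]
  rfl

theorem lift_up {f : P2 → R4} (hf : Per f) {τ : ℂ} (hτ : 0 < τ.im) : Lift τ (up f τ) := by
  intro m n z
  unfold up
  rw [coord_add τ hτ, phi_add hf]

/-! ### Consequences of `Lift` -/

/-- the integer vector of a lattice translation -/
def iv (m n : ℤ) : Fin 4 → ℤ := ![0, 0, m, n]

theorem add_iv (m n : ℤ) (x : R4) :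
    x + (m : ℝ) • e 2 + (n : ℝ) • e 3 = fun i => x i + iv m n i := by
  funext i
  simp only [Pi.add_apply, Pi.smul_apply, smul_eq_mul, iv, e]
  fin_cases i <;> simp

section

variable {τ : ℂ} {u : ℂ → R4}

theorem lift_add (hu : Lift τ u) (m n : ℤ) (z h : ℂ) :
    u (z + m + n * τ + h) = u (z + h) + (m : ℝ) • e 2 + (n : ℝ) • e 3 := by
  rw [← hu]
  congr 1
  ring

theorem lift_fderiv (hu : Lift τ u) (m n : ℤ) (z : ℂ) :
    fderiv ℝ u (z + m + n * τ) = fderiv ℝ u z := by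
  have h1 : (fun w => u (w + (m + n * τ))) = fun w => u w + ((m : ℝ) • e 2 + (n : ℝ) • e 3) := by
    funext w
    have := hu m n w
    rw [← add_assoc, ← add_assoc, this]
  have h2 : fderiv ℝ (fun w => u (w + (m + n * τ))) z = fderiv ℝ u (z + (m + n * τ)) :=
    fderiv_comp_add_right _
  rw [h1, fderiv_add_const] at h2
  rw [add_assoc, ← h2]

theorem lift_J (hu : Lift τ u) (D : Data) (m n : ℤ) (z : ℂ) :
    D.J (u (z + m + n * τ)) = D.J (u z) := by
  rw [hu, add_iv, D.J_per]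

theorem lift_ne (hu : Lift τ u) : ∃ z w, u z ≠ u w := by
  refine ⟨0 + (1 : ℤ) + (0 : ℤ) * τ, 0, ?_⟩
  rw [hu]
  intro h
  have := congrFun h 2
  simp [e] at this

end

/-! ### The Hermitian projection -/

/-- the dot product -/
def dotB : R4 →L[ℝ] R4 →L[ℝ] ℝ :=
  ∑ i : Fin 4, (ContinuousLinearMap.proj i : R4 →L[ℝ] ℝ).smulRight
    (ContinuousLinearMap.proj i : R4 →L[ℝ] ℝ)

theorem dotB_apply (v w : R4) : dotB v w = ∑ i, v i * w i := by
  simp [dotB]

theorem dotB_comm (v w : R4) : dotB v w = dotB w v := by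
  rw [dotB_apply, dotB_apply]
  exact Finset.sum_congr rfl fun i _ => mul_comm _ _

theorem dotB_self_nonneg (v : R4) : 0 ≤ dotB v v := by
  rw [dotB_apply]
  exact Finset.sum_nonneg fun i _ => mul_self_nonneg _

theorem dotB_self_pos {v : R4} (hv : v ≠ 0) : 0 < dotB v v := by
  rw [dotB_apply]
  obtain ⟨i, hi⟩ : ∃ i, v i ≠ 0 := by
    by_contra h
    push Not at h
    exact hv (funext h)
  exact Finset.sum_pos' (fun i _ => mul_self_nonneg _)
    ⟨i, Finset.mem_univ i, mul_self_pos.2 hi⟩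

/-- the `J`-invariant metric, as a functional of the first argument -/
def gL (A : R4 →L[ℝ] R4) (a : R4) : R4 →L[ℝ] ℝ := dotB.flip a + (dotB.flip (A a)).comp A

theorem gL_apply (A : R4 →L[ℝ] R4) (a v : R4) : gL A a v = dotB v a + dotB (A v) (A a) := rfl

/-- numerator of the projection -/
def Hm (A : R4 →L[ℝ] R4) (a : R4) : R4 →L[ℝ] ℂ :=
  Complex.ofRealCLM.comp (gL A a) + Complex.I • Complex.ofRealCLM.comp (gL A (A a))

theorem Hm_apply (A : R4 →L[ℝ] R4) (a v : R4) :
    Hm A a v = (gL A a v : ℂ) + Complex.I * (gL A (A a) v : ℂ) := rfl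

/-- the projection -/
def Pr (A : R4 →L[ℝ] R4) (a : R4) : R4 →L[ℝ] ℂ := ((gL A a a)⁻¹ : ℝ) • Hm A a

theorem Pr_apply (A : R4 →L[ℝ] R4) (a v : R4) : Pr A a v = ((gL A a a)⁻¹ : ℝ) • Hm A a v := rfl

theorem gL_self_pos (A : R4 →L[ℝ] R4) {a : R4} (ha : a ≠ 0) : 0 < gL A a a := by
  rw [gL_apply]
  have := dotB_self_pos ha
  have := dotB_self_nonneg (A a)
  linarith

theorem Pr_eq_zero_iff (A : R4 →L[ℝ] R4) {a : R4} (ha : a ≠ 0) (v : R4) :
    Pr A a v = 0 ↔ Hm A a v = 0 := by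
  rw [Pr_apply, smul_eq_zero]
  have := (inv_pos.2 (gL_self_pos A ha)).ne'
  tauto

theorem Pr_line (A : R4 →L[ℝ] R4) (hA : ∀ v, A (A v) = -v) {a : R4} (ha : a ≠ 0) (c : ℂ) :
    Pr A a (c.re • a + c.im • A a) = c := by
  have h1 : gL A a (A a) = 0 := by
    rw [gL_apply, hA]
    simp only [map_neg, neg_apply]
    rw [dotB_comm]
    ring
  have h2 : gL A (A a) a = 0 := by
    rw [gL_apply, hA]
    simp only [map_neg]
    rw [dotB_comm]
    ring
  have h3 : gL A (A a) (A a) = gL A a a := by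
    rw [gL_apply, gL_apply, hA]
    simp only [map_neg, neg_apply, neg_neg]
    ring
  have h0 := (gL_self_pos A ha).ne'
  rw [Pr_apply, Hm_apply]
  simp only [map_add, map_smul, h1, h2, h3, smul_eq_mul, mul_zero, add_zero, zero_add]
  rw [Complex.real_smul]
  have h4 : ((gL A a a : ℝ) : ℂ) ≠ 0 := by exact_mod_cast h0
  push_cast
  field_simp
  rw [mul_comm Complex.I]
  exact Complex.re_add_im c

theorem continuous_gL : Continuous fun q : (R4 →L[ℝ] R4) × R4 => gL q.1 q.2 := by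
  unfold gL
  fun_prop

theorem continuous_Hm : Continuous fun q : (R4 →L[ℝ] R4) × R4 => Hm q.1 q.2 := by
  have h1 : Continuous fun q : (R4 →L[ℝ] R4) × R4 => gL q.1 (q.1 q.2) :=
    continuous_gL.comp (g := fun q : (R4 →L[ℝ] R4) × R4 => gL q.1 q.2)
      (f := fun q : (R4 →L[ℝ] R4) × R4 => (q.1, q.1 q.2)) (by fun_prop)
  have h2 := continuous_gL
  unfold Hm
  fun_prop

theorem continuousAt_Pr {q : (R4 →L[ℝ] R4) × R4} (hq : q.2 ≠ 0) :
    ContinuousAt (fun q : (R4 →L[ℝ] R4) × R4 => Pr q.1 q.2) q := by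
  have h1 : Continuous fun q : (R4 →L[ℝ] R4) × R4 => gL q.1 q.2 q.2 :=
    continuous_gL.clm_apply continuous_snd
  have h2 : ContinuousAt (fun q : (R4 →L[ℝ] R4) × R4 => (gL q.1 q.2 q.2)⁻¹) q :=
    h1.continuousAt.inv₀ (gL_self_pos _ hq).ne'
  exact h2.smul continuous_Hm.continuousAt

end Vale.Agent.P247.H74.CEG
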