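import Vale.Agent.P247.H74.CE.GlobA

/-!
# CE, global part: foot points
-/

open scoped ContDiff Topology
open Set MeasureTheory Filter Metric Asymptotics

noncomputable section

namespace Vale.Agent.P247.H74.CEG

open Vale.Agent.P247.H74

/-- the projection onto the tangent line at `z` -/
def P (D : Data) (u : ℂ → R4) (z : ℂ) : R4 →L[ℝ] ℂ := Pr (D.J (u z)) (fderiv ℝ u z 1)

section

variable {D : Data} {u : ℂ → R4}

theorem fderiv_JH (hu : JH D u) (z h : ℂ) :
    fderiv ℝ u z h = h.re • fderiv ℝ u z 1 + h.im • D.J (u z) (fderiv ℝ u z 1) := by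
  rw [← hu.2 z, ← map_smul, ← map_smul, ← map_add]
  congr 1
  apply Complex.ext <;> simp

theorem P_fderiv (hu : JH D u) {z : ℂ} (hz : fderiv ℝ u z 1 ≠ 0) (h : ℂ) :
    P D u z (fderiv ℝ u z h) = h := by
  rw [fderiv_JH hu, P, Pr_line _ (D.J_sq _) hz]

theorem continuous_fderiv (hu : JH D u) : Continuous (fderiv ℝ u) :=
  hu.1.continuous_fderiv (by simp)

theorem continuousAt_P (hu : JH D u) {z : ℂ} (hz : fderiv ℝ u z 1 ≠ 0) :
    ContinuousAt (P D u) z := by
  have h1 : Continuous fun z => (D.J (u z), fderiv ℝ u z 1) := by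
    have h2 := continuous_fderiv hu
    have h3 := D.J_smooth.continuous.comp hu.1.continuous
    exact h3.prodMk (h2.clm_apply continuous_const)
  exact ContinuousAt.comp (g := fun q : (R4 →L[ℝ] R4) × R4 => Pr q.1 q.2)
    (f := fun z => (D.J (u z), fderiv ℝ u z 1)) (continuousAt_Pr hz) h1.continuousAt

/-- contraction -/
theorem exists_contr (hu : JH D u) {K : Set ℂ} (hK : IsCompact K)
    (hK0 : ∀ z ∈ K, fderiv ℝ u z 1 ≠ 0) : ∀ᶠ h in 𝓝 (0 : ℂ), ∀ z ∈ K,
      ‖ContinuousLinearMap.id ℝ ℂ - (P D u z).comp (fderiv ℝ u (z + h))‖ ≤ 1 / 2 := by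
  refine hK.eventually_forall_of_forall_eventually
    (P := fun h z => ‖ContinuousLinearMap.id ℝ ℂ - (P D u z).comp (fderiv ℝ u (z + h))‖ ≤ 1 / 2)
    fun z hz => ?_
  have h1 : ContinuousAt (fun q : ℂ × ℂ =>
      ‖ContinuousLinearMap.id ℝ ℂ - (P D u q.2).comp (fderiv ℝ u (q.2 + q.1))‖) (0, z) := by
    have h2 : ContinuousAt (fun q : ℂ × ℂ => P D u q.2) (0, z) :=
      ContinuousAt.comp (g := P D u) (f := fun q : ℂ × ℂ => q.2) (continuousAt_P hu (hK0 z hz))
        continuousAt_snd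
    have h3 : ContinuousAt (fun q : ℂ × ℂ => fderiv ℝ u (q.2 + q.1)) (0, z) :=
      ((continuous_fderiv hu).comp (by fun_prop)).continuousAt
    exact (continuousAt_const.sub (h2.clm_comp h3)).norm
  have h4 : ‖ContinuousLinearMap.id ℝ ℂ - (P D u z).comp (fderiv ℝ u (z + 0))‖ < 1 / 2 := by
    have : ContinuousLinearMap.id ℝ ℂ - (P D u z).comp (fderiv ℝ u (z + 0)) = 0 := by
      ext h
      all_goals simp [P_fderiv hu (hK0 z hz)]
    rw [this]
    simp
  filter_upwards [h1.eventually (isOpen_Iio.mem_nhds h4)] with q hq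
  exact le_of_lt hq

/-- bound of the projection -/
theorem exists_bdd (hu : JH D u) {K : Set ℂ} (hK : IsCompact K)
    (hK0 : ∀ z ∈ K, fderiv ℝ u z 1 ≠ 0) : ∃ C > 0, ∀ z ∈ K, ‖P D u z‖ ≤ C := by
  obtain ⟨C, hC⟩ := hK.exists_bound_of_continuousOn (f := P D u)
    fun z hz => (continuousAt_P hu (hK0 z hz)).continuousWithinAt
  exact ⟨max C 1, by positivity, fun z hz => (hC z hz).trans (le_max_left _ _)⟩

theorem Om_smul (hO : Om_statement) (D : Data) (x v w : R4) (c : ℝ) :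
    Om D x v (c • w) = c * Om D x v w := by
  have := (hO D).2.2.2.2.1 x v w (c : ℂ)
  simpa [cm] using this

/-- transversality -/
theorem exists_trans (hO : Om_statement) (hu : JH D u) {K : Set ℂ} (hK : IsCompact K)
    (hK0 : ∀ z ∈ K, fderiv ℝ u z 1 ≠ 0) : ∃ c > 0, ∀ᶠ h in 𝓝 (0 : ℂ), ∀ z ∈ K,
      ∀ v, P D u z v = 0 → c * ‖v‖ ≤ ‖Om D (u (z + h)) (fderiv ℝ u (z + h) 1) v‖ := by
  set K' : Set (ℂ × R4) := (K ×ˢ sphere (0 : R4) 1) ∩
    {q | Hm (D.J (u q.1)) (fderiv ℝ u q.1 1) q.2 = 0} with hK'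
  have hc1 : Continuous fun z => (D.J (u z), fderiv ℝ u z 1) := by
    have h2 := continuous_fderiv hu
    have h3 := D.J_smooth.continuous.comp hu.1.continuous
    exact h3.prodMk (h2.clm_apply continuous_const)
  have hcl : IsClosed {q : ℂ × R4 | Hm (D.J (u q.1)) (fderiv ℝ u q.1 1) q.2 = 0} := by
    refine isClosed_eq ?_ continuous_const
    have h1 : Continuous fun q : ℂ × R4 => Hm (D.J (u q.1)) (fderiv ℝ u q.1 1) :=
      Continuous.comp (g := fun q : (R4 →L[ℝ] R4) × R4 => Hm q.1 q.2)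
        (f := fun q : ℂ × R4 => (D.J (u q.1), fderiv ℝ u q.1 1)) continuous_Hm
        (Continuous.comp (g := fun z => (D.J (u z), fderiv ℝ u z 1))
          (f := fun q : ℂ × R4 => q.1) hc1 continuous_fst)
    exact h1.clm_apply continuous_snd
  have hKc : IsCompact K' := (hK.prod (isCompact_sphere _ _)).inter_right hcl
  set F : ℂ × (ℂ × R4) → ℝ := fun q =>
    ‖Om D (u (q.2.1 + q.1)) (fderiv ℝ u (q.2.1 + q.1) 1) q.2.2‖ with hF
  have hFc : Continuous F := by
    have h1 := (hO D).1.continuous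
    have h2 := continuous_fderiv hu
    have h3 : Continuous fun q : ℂ × (ℂ × R4) =>
        (u (q.2.1 + q.1), fderiv ℝ u (q.2.1 + q.1) 1, q.2.2) := by
      have h4 : Continuous fun q : ℂ × (ℂ × R4) => fderiv ℝ u (q.2.1 + q.1) :=
        h2.comp (by fun_prop)
      have h5 : Continuous fun q : ℂ × (ℂ × R4) => u (q.2.1 + q.1) :=
        hu.1.continuous.comp (by fun_prop)
      exact h5.prodMk ((h4.clm_apply continuous_const).prodMk (by fun_prop))
    exact (h1.comp h3).norm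
  have hpos : ∀ q ∈ K', 0 < F (0, q) := by
    rintro ⟨z, v⟩ ⟨⟨hz, hv⟩, hq⟩
    simp only [hF, norm_pos_iff]
    intro h
    have hz0 := hK0 z hz
    have h2 := (hO D).2.2.2.2.2 (u (z + 0)) (fderiv ℝ u (z + 0) 1) v
      (by rw [add_zero]; exact hz0) h
    obtain ⟨c, hc⟩ := h2
    rw [add_zero] at hc
    have h3 : P D u z v = c := by
      rw [hc, P, cm, Pr_line _ (D.J_sq _) hz0]
    have h4 : P D u z v = 0 := (Pr_eq_zero_iff _ hz0 _).2 hq
    rw [h3] at h4
    rw [h4] at hc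
    have h5 : v = 0 := by simpa [cm] using hc
    rw [h5] at hv
    simp at hv
  obtain ⟨c, hc0, hc⟩ := hKc.exists_forall_le' (f := fun q => F (0, q))
    (hFc.comp (by fun_prop)).continuousOn hpos
  refine ⟨c / 2, half_pos hc0, ?_⟩
  have h6 : ∀ᶠ h in 𝓝 (0 : ℂ), ∀ q ∈ K', c / 2 ≤ F (h, q) := by
    refine hKc.eventually_forall_of_forall_eventually (P := fun h q => c / 2 ≤ F (h, q))
      fun q hq => ?_
    have h7 : c / 2 < F (0, q) := by
      have := hc q hq
      linarith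
    filter_upwards [hFc.continuousAt.eventually (isOpen_Ioi.mem_nhds h7)] with q hq
    exact le_of_lt hq
  filter_upwards [h6] with h hh z hz v hv
  by_cases hv0 : v = 0
  · rw [hv0]
    simp
  have hn : 0 < ‖v‖ := norm_pos_iff.2 hv0
  have h8 : ((z, ‖v‖⁻¹ • v) : ℂ × R4) ∈ K' := by
    refine ⟨⟨hz, ?_⟩, ?_⟩
    · simp [norm_smul, hn.ne']
    · show Hm (D.J (u z)) (fderiv ℝ u z 1) (‖v‖⁻¹ • v) = 0
      rw [map_smul, (Pr_eq_zero_iff _ (hK0 z hz) _).1 hv, smul_zero]
  have h9 := hh _ h8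
  simp only [hF] at h9
  rw [Om_smul hO, norm_mul, Complex.norm_real, norm_inv, norm_norm] at h9
  have h10 := mul_le_mul_of_nonneg_left h9 hn.le
  rw [← mul_assoc, mul_inv_cancel₀ hn.ne', one_mul] at h10
  linarith

end

/-! ### Fixed points -/

section

variable {D : Data} {u : ℂ → R4} {z : ℂ} {δ C : ℝ}

/-- the map whose fixed point is the displacement of the foot point -/
def T (D : Data) (u : ℂ → R4) (z : ℂ) (w : R4) (h : ℂ) : ℂ := h + P D u z (w - u (z + h))

theorem T_contr (hu : JH D u)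
    (hc : ∀ h : ℂ, ‖h‖ ≤ δ →
      ‖ContinuousLinearMap.id ℝ ℂ - (P D u z).comp (fderiv ℝ u (z + h))‖ ≤ 1 / 2) (w : R4)
    {h h' : ℂ} (hh : ‖h‖ ≤ δ) (hh' : ‖h'‖ ≤ δ) :
    ‖T D u z w h' - T D u z w h‖ ≤ 1 / 2 * ‖h' - h‖ := by
  refine Convex.norm_image_sub_le_of_norm_hasFDerivWithin_le (𝕜 := ℝ) (f := T D u z w)
    (f' := fun h => ContinuousLinearMap.id ℝ ℂ - (P D u z).comp (fderiv ℝ u (z + h)))
    (s := closedBall (0 : ℂ) δ) ?_ ?_ (convex_closedBall _ _) (by simpa using hh) (by simpa using hh')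
  · intro k _
    refine HasFDerivAt.hasFDerivWithinAt ?_
    have h1 : HasFDerivAt (fun h => u (z + h)) (fderiv ℝ u (z + k)) k := by
      have h2 : HasFDerivAt u (fderiv ℝ u (z + k)) (z + k) :=
        (hu.1.differentiable (by simp) _).hasFDerivAt
      have h3 : HasFDerivAt (fun h : ℂ => z + h) (ContinuousLinearMap.id ℝ ℂ) k :=
        (hasFDerivAt_id k).const_add z
      simpa using h2.comp k h3
    have h4 : HasFDerivAt (fun h => P D u z (w - u (z + h)))
        ((P D u z).comp (-(fderiv ℝ u (z + k)))) k :=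
      (P D u z).hasFDerivAt.comp k (h1.const_sub w)
    have h5 := (hasFDerivAt_id (𝕜 := ℝ) k).add h4
    rw [ContinuousLinearMap.comp_neg, ← sub_eq_add_neg] at h5
    exact h5
  · intro k hk
    exact hc k (by simpa using hk)

theorem exists_fix (hδ : 0 ≤ δ) (hu : JH D u)
    (hc : ∀ h : ℂ, ‖h‖ ≤ δ →
      ‖ContinuousLinearMap.id ℝ ℂ - (P D u z).comp (fderiv ℝ u (z + h))‖ ≤ 1 / 2)
    (hC : ‖P D u z‖ ≤ C) {w : R4} (hw : C * ‖w - u z‖ ≤ δ / 2) :
    ∃ h : ℂ, ‖h‖ ≤ δ ∧ P D u z (w - u (z + h)) = 0 := by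
  have hmap : MapsTo (T D u z w) (closedBall (0 : ℂ) δ) (closedBall (0 : ℂ) δ) := by
    intro h hh
    have hh' : ‖h‖ ≤ δ := by simpa using hh
    have h1 := T_contr hu hc w (h := 0) (h' := h) (by simpa using hδ) hh'
    have h2 : ‖T D u z w 0‖ ≤ δ / 2 := by
      rw [T, add_zero, zero_add]
      exact (((P D u z).le_opNorm _).trans (mul_le_mul_of_nonneg_right hC (norm_nonneg _))).trans hw
    rw [sub_zero] at h1
    have h3 : ‖T D u z w h‖ ≤ ‖T D u z w h - T D u z w 0‖ + ‖T D u z w 0‖ := by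
      have := norm_add_le (T D u z w h - T D u z w 0) (T D u z w 0)
      simpa using this
    rw [mem_closedBall, dist_zero_right]
    linarith
  have hcon : ContractingWith (1 / 2) (hmap.restrict (T D u z w) _ _) := by
    refine ⟨by norm_num, LipschitzWith.of_dist_le_mul ?_⟩
    rintro ⟨x, hx⟩ ⟨y, hy⟩
    rw [Subtype.dist_eq, Subtype.dist_eq, dist_eq_norm, dist_eq_norm]
    have := T_contr hu hc w (h := y) (h' := x) (by simpa using hy) (by simpa using hx)
    simpa using this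
  obtain ⟨h, hh, hfix, -⟩ := ContractingWith.exists_fixedPoint' (isClosed_closedBall.isComplete)
    hmap hcon (mem_closedBall_self hδ) (edist_ne_top _ _)
  refine ⟨h, by simpa using hh, ?_⟩
  have h1 : T D u z w h = h := hfix
  rw [T] at h1
  exact add_eq_left.1 h1

theorem fix_unique (hu : JH D u)
    (hc : ∀ h : ℂ, ‖h‖ ≤ δ →
      ‖ContinuousLinearMap.id ℝ ℂ - (P D u z).comp (fderiv ℝ u (z + h))‖ ≤ 1 / 2)
    {w : R4} {h h' : ℂ} (hh : ‖h‖ ≤ δ) (hh' : ‖h'‖ ≤ δ) (e1 : P D u z (w - u (z + h)) = 0) :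
    ‖h' - h‖ ≤ 2 * ‖P D u z (w - u (z + h'))‖ := by
  have h1 := T_contr hu hc w hh hh'
  have h2 : T D u z w h = h := by rw [T, e1, add_zero]
  have h3 : T D u z w h' = h' + P D u z (w - u (z + h')) := rfl
  rw [h2, h3] at h1
  have h4 : ‖h' - h‖ ≤ ‖h' + P D u z (w - u (z + h')) - h‖ + ‖P D u z (w - u (z + h'))‖ := by
    have := norm_sub_le (h' + P D u z (w - u (z + h')) - h) (P D u z (w - u (z + h')))
    refine le_trans (le_of_eq ?_) this
    congr 1
    ring
  linarith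

end

end Vale.Agent.P247.H74.CEG
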