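import Vale.Agent.P247.H74.CE.GlobB

/-!
# CE, global part: the periodic function and the conclusion
-/

open scoped ContDiff Topology
open Set MeasureTheory Filter Metric Asymptotics

noncomputable section

namespace Vale.Agent.P247.H74.CEG

open Vale.Agent.P247.H74

/-- displacement of the foot point -/
def HH (D : Data) (u : ℂ → R4) (δ : ℝ) (ψ : ℂ → R4) (z : ℂ) : ℂ :=
  Classical.epsilon fun h : ℂ => ‖h‖ ≤ δ ∧ P D u z (ψ z - u (z + h)) = 0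

/-- the periodic function -/
def bet (D : Data) (u : ℂ → R4) (δ : ℝ) (ψ : ℂ → R4) (z : ℂ) : ℂ :=
  Om D (u (z + HH D u δ ψ z)) (fderiv ℝ u (z + HH D u δ ψ z) 1) (ψ z - u (z + HH D u δ ψ z))

/-- lattice translates of a set -/
def Kl (τ : ℂ) (K : Set ℂ) : Set ℂ := {z | ∃ m n : ℤ, z + m + n * τ ∈ K}

section

variable {τ : ℂ} {D : Data} {u ψ : ℂ → R4} {δ : ℝ}

theorem P_per (hl : Lift τ u) (m n : ℤ) (z : ℂ) : P D u (z + m + n * τ) = P D u z := by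
  rw [P, P, lift_J hl, lift_fderiv hl]

theorem fderiv_per (hl : Lift τ u) (m n : ℤ) (z h : ℂ) :
    fderiv ℝ u (z + m + n * τ + h) = fderiv ℝ u (z + h) := by
  rw [← lift_fderiv hl m n (z + h)]
  congr 1
  ring

theorem diff_per (hl : Lift τ u) (hψ : Lift τ ψ) (m n : ℤ) (z h : ℂ) :
    ψ (z + m + n * τ) - u (z + m + n * τ + h) = ψ z - u (z + h) := by
  rw [hψ, lift_add hl]
  abel

theorem HH_per (hl : Lift τ u) (hψ : Lift τ ψ) (m n : ℤ) (z : ℂ) :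
    HH D u δ ψ (z + m + n * τ) = HH D u δ ψ z := by
  unfold HH
  congr 1
  funext h
  rw [P_per hl, diff_per hl hψ]

theorem Om_per (hO : Om_statement) (hl : Lift τ u) (m n : ℤ) (z h : ℂ) (v : R4) :
    Om D (u (z + m + n * τ + h)) (fderiv ℝ u (z + m + n * τ + h) 1) v =
      Om D (u (z + h)) (fderiv ℝ u (z + h) 1) v := by
  rw [fderiv_per hl, lift_add hl, add_iv, (hO D).2.1]

theorem bet_per (hO : Om_statement) (hl : Lift τ u) (hψ : Lift τ ψ) (m n : ℤ) (z : ℂ) :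
    bet D u δ ψ (z + m + n * τ) = bet D u δ ψ z := by
  unfold bet
  rw [HH_per hl hψ, Om_per hO hl, diff_per hl hψ]

/-- the uniform estimates, on the lattice translates of a compact set -/
theorem exists_unif (hO : Om_statement) (hu : JH D u) (hl : Lift τ u) {K : Set ℂ}
    (hK : IsCompact K) (hK0 : ∀ z ∈ K, fderiv ℝ u z 1 ≠ 0) :
    ∃ δ > 0, ∃ C > 0, ∃ c > 0, ∀ z ∈ Kl τ K, ‖P D u z‖ ≤ C ∧ fderiv ℝ u z 1 ≠ 0 ∧
      ∀ h : ℂ, ‖h‖ ≤ δ →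
        ‖ContinuousLinearMap.id ℝ ℂ - (P D u z).comp (fderiv ℝ u (z + h))‖ ≤ 1 / 2 ∧
        ∀ v, P D u z v = 0 → c * ‖v‖ ≤ ‖Om D (u (z + h)) (fderiv ℝ u (z + h) 1) v‖ := by
  have h1 := exists_contr hu hK hK0
  obtain ⟨C, hC, h2⟩ := exists_bdd hu hK hK0
  obtain ⟨c, hc, h3⟩ := exists_trans hO hu hK hK0
  obtain ⟨δ, hδ, h4⟩ := Metric.eventually_nhds_iff_ball.1 (h1.and h3)
  refine ⟨δ / 2, half_pos hδ, C, hC, c, hc, ?_⟩
  rintro z ⟨m, n, hz⟩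
  refine ⟨?_, ?_, ?_⟩
  · rw [← P_per hl m n]
    exact h2 _ hz
  · rw [← lift_fderiv hl m n]
    exact hK0 _ hz
  · intro h hh
    have hh' : h ∈ ball (0 : ℂ) δ := by
      rw [mem_ball, dist_zero_right]
      linarith
    obtain ⟨h5, h6⟩ := h4 h hh'
    refine ⟨?_, fun v hv => ?_⟩
    · rw [← P_per hl m n, ← fderiv_per hl m n]
      exact h5 _ hz
    · rw [← Om_per hO hl m n]
      refine h6 _ hz v ?_
      rw [P_per hl]
      exact hv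

variable {C c : ℝ} {K : Set ℂ}

theorem HH_spec (hδ : 0 ≤ δ) (hu : JH D u) {z : ℂ}
    (hz : ‖P D u z‖ ≤ C ∧ fderiv ℝ u z 1 ≠ 0 ∧
      ∀ h : ℂ, ‖h‖ ≤ δ →
        ‖ContinuousLinearMap.id ℝ ℂ - (P D u z).comp (fderiv ℝ u (z + h))‖ ≤ 1 / 2 ∧
        ∀ v, P D u z v = 0 → c * ‖v‖ ≤ ‖Om D (u (z + h)) (fderiv ℝ u (z + h) 1) v‖)
    (hw : C * ‖ψ z - u z‖ ≤ δ / 2) :
    ‖HH D u δ ψ z‖ ≤ δ ∧ P D u z (ψ z - u (z + HH D u δ ψ z)) = 0 :=
  Classical.epsilon_spec (exists_fix hδ hu (fun h hh => (hz.2.2 h hh).1) hz.1 hw)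

theorem HH_small (hδ : 0 ≤ δ) (hu : JH D u) {z : ℂ}
    (hz : ‖P D u z‖ ≤ C ∧ fderiv ℝ u z 1 ≠ 0 ∧
      ∀ h : ℂ, ‖h‖ ≤ δ →
        ‖ContinuousLinearMap.id ℝ ℂ - (P D u z).comp (fderiv ℝ u (z + h))‖ ≤ 1 / 2 ∧
        ∀ v, P D u z v = 0 → c * ‖v‖ ≤ ‖Om D (u (z + h)) (fderiv ℝ u (z + h) 1) v‖)
    (hw : C * ‖ψ z - u z‖ ≤ δ / 2) :
    ‖HH D u δ ψ z‖ ≤ 2 * (C * ‖ψ z - u z‖) := by
  obtain ⟨h1, h2⟩ := HH_spec hδ hu hz hw
  have h3 := fix_unique hu (fun h hh => (hz.2.2 h hh).1) h1 (h' := 0) (by simpa using hδ) h2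
  rw [zero_sub, norm_neg, add_zero] at h3
  refine h3.trans (mul_le_mul_of_nonneg_left ?_ (by norm_num))
  exact ((P D u z).le_opNorm _).trans (mul_le_mul_of_nonneg_right hz.1 (norm_nonneg _))

theorem HH_cont (hδ : 0 ≤ δ) (hu : JH D u) (hψ : Continuous ψ) {Ω : Set ℂ}
    (hz : ∀ z ∈ Ω, ‖P D u z‖ ≤ C ∧ fderiv ℝ u z 1 ≠ 0 ∧
      ∀ h : ℂ, ‖h‖ ≤ δ →
        ‖ContinuousLinearMap.id ℝ ℂ - (P D u z).comp (fderiv ℝ u (z + h))‖ ≤ 1 / 2 ∧
        ∀ v, P D u z v = 0 → c * ‖v‖ ≤ ‖Om D (u (z + h)) (fderiv ℝ u (z + h) 1) v‖)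
    (hw : ∀ z ∈ Ω, C * ‖ψ z - u z‖ ≤ δ / 2) : ContinuousOn (HH D u δ ψ) Ω := by
  intro z hzΩ
  obtain ⟨h1, h2⟩ := HH_spec hδ hu (hz z hzΩ) (hw z hzΩ)
  set k : ℂ := HH D u δ ψ z with hk
  have hc : Continuous fun z' => ψ z' - u (z' + k) :=
    hψ.sub (hu.1.continuous.comp (continuous_id.add continuous_const))
  have h3 : ContinuousAt (fun z' => P D u z' (ψ z' - u (z' + k))) z :=
    (continuousAt_P hu (hz z hzΩ).2.1).clm_apply hc.continuousAt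
  have h3' : Tendsto (fun z' => P D u z' (ψ z' - u (z' + k))) (𝓝 z) (𝓝 0) := by
    have := h3.tendsto
    simp only [h2] at this
    exact this
  have h4 : Tendsto (fun z' => 2 * ‖P D u z' (ψ z' - u (z' + k))‖) (𝓝[Ω] z) (𝓝 0) := by
    have := (h3'.norm.const_mul 2).mono_left (nhdsWithin_le_nhds (s := Ω))
    simpa using this
  have h5 : ∀ z' ∈ Ω, ‖HH D u δ ψ z' - k‖ ≤ 2 * ‖P D u z' (ψ z' - u (z' + k))‖ := by
    intro z' hz'
    obtain ⟨h5, h6⟩ := HH_spec hδ hu (hz z' hz') (hw z' hz')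
    rw [norm_sub_rev]
    exact fix_unique hu (fun h hh => ((hz z' hz').2.2 h hh).1) h5 h1 h6
  have h6 : Tendsto (HH D u δ ψ) (𝓝[Ω] z) (𝓝 k) := by
    rw [tendsto_iff_norm_sub_tendsto_zero]
    refine squeeze_zero' (Eventually.of_forall fun _ => norm_nonneg _) ?_ h4
    filter_upwards [self_mem_nhdsWithin] with z' hz'
    exact h5 z' hz'
  exact h6

theorem bet_cont (hO : Om_statement) (hu : JH D u) (hψ : Continuous ψ) {Ω : Set ℂ}
    (hH : ContinuousOn (HH D u δ ψ) Ω) : ContinuousOn (bet D u δ ψ) Ω := by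
  have h1 := (hO D).1.continuous
  have h2 : ContinuousOn (fun z => z + HH D u δ ψ z) Ω := continuousOn_id.add hH
  have h3 : ContinuousOn (fun z => u (z + HH D u δ ψ z)) Ω :=
    hu.1.continuous.comp_continuousOn h2
  have h4 : ContinuousOn (fun z => fderiv ℝ u (z + HH D u δ ψ z) 1) Ω :=
    ((continuous_fderiv hu).comp_continuousOn h2).clm_apply continuousOn_const
  exact Continuous.comp_continuousOn (g := fun q : R4 × R4 × R4 => Om D q.1 q.2.1 q.2.2)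
    (f := fun z => (u (z + HH D u δ ψ z), fderiv ℝ u (z + HH D u δ ψ z) 1,
      ψ z - u (z + HH D u δ ψ z))) h1 (h3.prodMk (h4.prodMk (hψ.continuousOn.sub h3)))

end

end Vale.Agent.P247.H74.CEG
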