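import Vale.Agent.P247.H74.CE.GlobC

/-!
# CE, global part: conclusion
-/

open scoped ContDiff Topology
open Set MeasureTheory Filter Metric Asymptotics

noncomputable section

namespace Vale.Agent.P247.H74.CEG

open Vale.Agent.P247.H74 WWIND

/-! ### The fundamental domain -/

/-- the closed fundamental parallelogram -/
def Q (τ : ℂ) : Set ℂ := (fun p : P2 => (p.1 : ℂ) + p.2 * τ) '' (Icc 0 1 ×ˢ Icc 0 1)

theorem isCompact_Q (τ : ℂ) : IsCompact (Q τ) :=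
  (isCompact_Icc.prod isCompact_Icc).image (by fun_prop)

/-- reduction to the half-open fundamental parallelogram -/
theorem reduce {τ : ℂ} (hτ : 0 < τ.im) (z : ℂ) : ∃ m n : ℤ, z + m + n * τ ∈ Q τ ∧
    0 ≤ (coord τ (z + m + n * τ)).1 ∧ (coord τ (z + m + n * τ)).1 < 1 ∧
    0 ≤ (coord τ (z + m + n * τ)).2 ∧ (coord τ (z + m + n * τ)).2 < 1 := by
  refine ⟨-⌊(coord τ z).1⌋, -⌊(coord τ z).2⌋, ?_⟩
  have h1 := coord_add τ hτ (-⌊(coord τ z).1⌋) (-⌊(coord τ z).2⌋) z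
  have h2 : (coord τ z).1 + ((-⌊(coord τ z).1⌋ : ℤ) : ℝ) = Int.fract (coord τ z).1 := by
    push_cast
    rw [← sub_eq_add_neg, Int.self_sub_floor]
  have h3 : (coord τ z).2 + ((-⌊(coord τ z).2⌋ : ℤ) : ℝ) = Int.fract (coord τ z).2 := by
    push_cast
    rw [← sub_eq_add_neg, Int.self_sub_floor]
  rw [h2, h3] at h1
  rw [h1]
  refine ⟨⟨(Int.fract (coord τ z).1, Int.fract (coord τ z).2), ?_, ?_⟩, Int.fract_nonneg _,
    Int.fract_lt_one _, Int.fract_nonneg _, Int.fract_lt_one _⟩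
  · exact ⟨⟨Int.fract_nonneg _, (Int.fract_lt_one _).le⟩,
      ⟨Int.fract_nonneg _, (Int.fract_lt_one _).le⟩⟩
  · rw [← h1]
    exact coord_eq τ hτ _

/-- a point of the half-open parallelogram is not a lattice translate of another one -/
theorem unique_rep {τ : ℂ} (hτ : 0 < τ.im) {z w : ℂ} {m n : ℤ}
    (hz : 0 ≤ (coord τ z).1 ∧ (coord τ z).1 < 1 ∧ 0 ≤ (coord τ z).2 ∧ (coord τ z).2 < 1)
    (hw : 0 ≤ (coord τ w).1 ∧ (coord τ w).1 < 1 ∧ 0 ≤ (coord τ w).2 ∧ (coord τ w).2 < 1)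
    (h : w + m + n * τ = z) : m = 0 ∧ n = 0 := by
  have h1 := coord_add τ hτ m n w
  rw [h] at h1
  have h2 := congrArg Prod.fst h1
  have h3 := congrArg Prod.snd h1
  simp only at h2 h3
  obtain ⟨a1, a2, a3, a4⟩ := hz
  obtain ⟨b1, b2, b3, b4⟩ := hw
  have c1 : (m : ℝ) < 1 := by linarith
  have c2 : (-1 : ℝ) < m := by linarith
  have c3 : (n : ℝ) < 1 := by linarith
  have c4 : (-1 : ℝ) < n := by linarith
  have d1 : m < 1 := by exact_mod_cast c1
  have d2 : -1 < m := by exact_mod_cast c2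
  have d3 : n < 1 := by exact_mod_cast c3
  have d4 : -1 < n := by exact_mod_cast c4
  omega

/-- the critical points modulo the lattice -/
theorem exists_crit {τ : ℂ} (hτ : 0 < τ.im) {u : ℂ → R4} (hl : Lift τ u)
    (h6 : ∀ z₀, ∀ᶠ z in 𝓝[≠] z₀, fderiv ℝ u z 1 ≠ 0) :
    ∃ (N : ℕ) (zc : Fin N → ℂ), (∀ i, fderiv ℝ u (zc i) 1 = 0) ∧
      (∀ z, fderiv ℝ u z 1 = 0 → ∃ i, ∃ m n : ℤ, z = zc i + m + n * τ) ∧
      (∀ i j (m n : ℤ), (i ≠ j ∨ m ≠ 0 ∨ n ≠ 0) → zc i ≠ zc j + m + n * τ) := by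
  set S : Set ℂ := {z | fderiv ℝ u z 1 = 0 ∧ z ∈ Q τ ∧ 0 ≤ (coord τ z).1 ∧ (coord τ z).1 < 1 ∧
    0 ≤ (coord τ z).2 ∧ (coord τ z).2 < 1} with hS
  have hfin : S.Finite := by
    by_contra hinf
    obtain ⟨x, -, hx⟩ := Set.Infinite.exists_accPt_of_subset_isCompact hinf (isCompact_Q τ)
      (fun z hz => hz.2.1)
    rw [accPt_iff_frequently_nhdsNE] at hx
    refine hx ?_
    filter_upwards [h6 x] with z hz hzS
    exact hz hzS.1
  obtain ⟨N, zc, hinj, hrange⟩ := hfin.fin_param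
  have hmem : ∀ i, zc i ∈ S := fun i => hrange ▸ mem_range_self i
  refine ⟨N, zc, fun i => (hmem i).1, ?_, ?_⟩
  · intro z hz
    obtain ⟨m, n, h1⟩ := reduce hτ z
    have h2 : z + m + n * τ ∈ S := ⟨by rw [lift_fderiv hl]; exact hz, h1⟩
    rw [← hrange] at h2
    obtain ⟨i, hi⟩ := h2
    refine ⟨i, -m, -n, ?_⟩
    rw [hi]
    push_cast
    ring
  · intro i j m n h hij
    obtain ⟨h1, h2⟩ := unique_rep hτ (hmem i).2.2 (hmem j).2.2 hij.symm
    rw [h1, h2] at hij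
    have h3 : i = j := hinj (by simpa using hij)
    tauto

/-- for small radii the discs are disjoint -/
theorem exists_disj {τ : ℂ} {u : ℂ → R4} (hl : Lift τ u)
    (h6 : ∀ z₀, ∀ᶠ z in 𝓝[≠] z₀, fderiv ℝ u z 1 ≠ 0) {N : ℕ} {zc : Fin N → ℂ}
    (h1 : ∀ i, fderiv ℝ u (zc i) 1 = 0)
    (h3 : ∀ i j (m n : ℤ), (i ≠ j ∨ m ≠ 0 ∨ n ≠ 0) → zc i ≠ zc j + m + n * τ) :
    ∀ᶠ r in 𝓝[>] (0 : ℝ), ∀ i j (m n : ℤ), (i ≠ j ∨ m ≠ 0 ∨ n ≠ 0) →
      Disjoint (closedBall (zc i) r) (closedBall (zc j + m + n * τ) r) := by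
  rw [eventually_all]
  intro i
  have h4 := h6 (zc i)
  rw [eventually_nhdsWithin_iff, Metric.eventually_nhds_iff_ball] at h4
  obtain ⟨ρ, hρ, h5⟩ := h4
  filter_upwards [Ioo_mem_nhdsGT (half_pos hρ)] with r hr j m n h
  refine closedBall_disjoint_closedBall ?_
  by_contra hcon
  push Not at hcon
  have h7 : zc j + m + n * τ ∈ ball (zc i) ρ := by
    rw [mem_ball, dist_comm]
    linarith [hr.2]
  refine h5 _ h7 (h3 i j m n h).symm ?_
  rw [lift_fderiv hl]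
  exact h1 j

/-! ### Uniform convergence -/

theorem unif_conv {fn : ℕ → P2 → R4} {f : P2 → R4} (hfn : ∀ n, Per (fn n)) (hf : Per f)
    (h : TendstoLocallyUniformly fn f atTop) {ε : ℝ} (hε : 0 < ε) :
    ∀ᶠ n in atTop, ∀ p, ‖fn n p - f p‖ < ε := by
  have h1 := (tendstoLocallyUniformlyOn_iff_tendstoUniformlyOn_of_compact
    (isCompact_Icc.prod isCompact_Icc : IsCompact (Icc (0 : ℝ) 1 ×ˢ Icc (0 : ℝ) 1))).1
    h.tendstoLocallyUniformlyOn
  rw [Metric.tendstoUniformlyOn_iff] at h1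
  filter_upwards [h1 ε hε] with n hn p
  have e1 := hfn n (-⌊p.1⌋) (-⌊p.2⌋) p
  have e2 := hf (-⌊p.1⌋) (-⌊p.2⌋) p
  have e3 : p.1 + ((-⌊p.1⌋ : ℤ) : ℝ) = Int.fract p.1 := by
    push_cast
    rw [← sub_eq_add_neg, Int.self_sub_floor]
  have e4 : p.2 + ((-⌊p.2⌋ : ℤ) : ℝ) = Int.fract p.2 := by
    push_cast
    rw [← sub_eq_add_neg, Int.self_sub_floor]
  rw [e3, e4] at e1 e2
  rw [← e1, ← e2, ← dist_eq_norm, dist_comm]
  exact hn _ ⟨⟨Int.fract_nonneg _, (Int.fract_lt_one _).le⟩,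
    ⟨Int.fract_nonneg _, (Int.fract_lt_one _).le⟩⟩

theorem up_sub (f g : P2 → R4) (τ z : ℂ) : up f τ z - up g τ z = f (coord τ z) - g (coord τ z) := by
  unfold up phi
  abel

theorem CEglob : CEglob_statement := by
  intro hO hCE hP6 _ D fn f τ hf hfn hper hT hmiss hloc
  by_contra himm
  unfold Imm at himm
  push Not at himm
  obtain ⟨p₀, hp₀⟩ := himm
  have hτ := hf.im_pos
  set u := up f τ with hudef
  have hu : JH D u := JH_up hf
  have hl : Lift τ u := lift_up hf.per hτ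
  have hne := lift_ne hl
  have h6 : ∀ z₀, ∀ᶠ z in 𝓝[≠] z₀, fderiv ℝ u z 1 ≠ 0 := fun z₀ =>
    (hP6 D u hu hne z₀).mono fun z hz => hz.1
  -- the other curves
  set ψ : ℕ → ℂ → R4 := fun n => up (fn n) τ with hψdef
  have hψc : ∀ n, Continuous (ψ n) := fun n => (contDiff_up (hfn n) τ).continuous
  have hψl : ∀ n, Lift τ (ψ n) := fun n => lift_up (hper n) hτ
  have hψm : ∀ n z w, ψ n z ≠ u w := fun n z w => hmiss n _ _
  have hψu : ∀ ε > 0, ∀ᶠ n in atTop, ∀ z, ‖ψ n z - u z‖ < ε := by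
    intro ε hε
    filter_upwards [unif_conv hper hf.per hT.1 hε] with n hn z
    rw [hψdef, hudef]
    simp only
    rw [up_sub]
    exact hn _
  have hψt : TendstoLocallyUniformly ψ u atTop := by
    refine TendstoUniformly.tendstoLocallyUniformly ?_
    rw [Metric.tendstoUniformly_iff]
    intro ε hε
    filter_upwards [hψu ε hε] with n hn z
    rw [dist_comm, dist_eq_norm]
    exact hn z
  -- local injectivity
  have hinj : ∀ z₀, ∃ ε > 0, ∀ z ∈ ball z₀ ε, ∀ w ∈ ball z₀ ε, u z = u w → z = w := by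
    intro z₀
    obtain ⟨ε, hε, h1⟩ := hloc (coord τ z₀)
    have h2 : ∀ᶠ z in 𝓝 z₀, coord τ z ∈ ball (coord τ z₀) ε :=
      (continuous_coord τ).continuousAt.eventually (ball_mem_nhds _ hε)
    obtain ⟨ε', hε', h3⟩ := Metric.eventually_nhds_iff_ball.1 h2
    refine ⟨ε', hε', fun z hz w hw hzw => ?_⟩
    have h4 := h1 _ (h3 z hz) _ (h3 w hw) hzw
    rw [← coord_eq τ hτ z, ← coord_eq τ hτ w, h4]
  -- critical points
  obtain ⟨N, zc, hc1, hc2, hc3⟩ := exists_crit hτ hl h6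
  -- the radius
  have hr1 : ∀ᶠ r in 𝓝[>] (0 : ℝ), ∀ i, ∀ (ψ : ℕ → ℂ → R4), (∀ n, Continuous (ψ n)) →
    TendstoLocallyUniformly ψ u atTop → (∀ n z w, ψ n z ≠ u w) →
    ∀ (ζ : ℕ → ℂ → ℂ), (∀ n, ContinuousOn (ζ n) (sphere (zc i) r)) →
    (∀ ε > 0, ∀ᶠ n in atTop, ∀ z ∈ sphere (zc i) r, dist (ζ n z) z < ε) →
    (∃ c > 0, ∀ᶠ n in atTop, ∀ z ∈ sphere (zc i) r, c * ‖ψ n z - u (ζ n z)‖ ≤
      ‖Om D (u (ζ n z)) (fderiv ℝ u (ζ n z) 1) (ψ n z - u (ζ n z))‖) →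
    ∀ᶠ n in atTop, ∃ m : ℤ, m ≤ -1 ∧ HasWinding
      (fun z => Om D (u (ζ n z)) (fderiv ℝ u (ζ n z) 1) (ψ n z - u (ζ n z))) (zc i) r m := by
    rw [eventually_all]
    intro i
    exact hCE D u (zc i) hu hne (hc1 i) (hinj _)
  obtain ⟨r, ⟨hr1, hr2⟩, hr3⟩ :=
    ((hr1.and (exists_disj hl h6 hc1 hc3)).and self_mem_nhdsWithin).exists
  have hrp : (0 : ℝ) < r := hr3
  set r₀ : ℝ := r / 2 with hr0
  have hr0p : 0 < r₀ := half_pos hrp
  have hr0r : r₀ < r := half_lt_self hrp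
  -- the compact set
  set K : Set ℂ := Q τ ∩ {z | ∀ a : Fin N × ℤ × ℤ, r₀ ≤ dist z (cen τ zc a)} with hKdef
  have hK : IsCompact K := by
    refine (isCompact_Q τ).inter_right ?_
    have : {z | ∀ a : Fin N × ℤ × ℤ, r₀ ≤ dist z (cen τ zc a)} =
        ⋂ a : Fin N × ℤ × ℤ, {z | r₀ ≤ dist z (cen τ zc a)} := by
      ext z
      simp
    rw [this]
    exact isClosed_iInter fun a => isClosed_le continuous_const (by fun_prop)
  have hK0 : ∀ z ∈ K, fderiv ℝ u z 1 ≠ 0 := by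
    rintro z ⟨-, hz⟩ h
    obtain ⟨i, m, n, hi⟩ := hc2 z h
    have := hz (i, m, n)
    rw [hi] at this
    simp only [cen, dist_self] at this
    linarith
  set Ω : Set ℂ := {w | ∀ i (m n : ℤ), r₀ < dist w (zc i + m + n * τ)} with hΩ
  have hΩK : Ω ⊆ Kl τ K := by
    intro z hz
    obtain ⟨m, n, h1, -⟩ := reduce hτ z
    refine ⟨m, n, h1, ?_⟩
    rintro ⟨i, m', n'⟩
    have h2 := hz i (m' - m) (n' - n)
    refine h2.le.trans (le_of_eq ?_)
    rw [dist_eq_norm, dist_eq_norm]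
    congr 1
    simp only [cen]
    push_cast
    ring
  obtain ⟨δ, hδ, C, hC, c, hcp, hunif⟩ := exists_unif hO hu hl hK hK0
  have hunif' : ∀ z ∈ Ω, _ := fun z hz => hunif z (hΩK hz)
  -- the sphere is in the region
  have hsph : ∀ i, sphere (zc i) r ⊆ Ω := by
    intro i z hz j m n
    by_cases h : i ≠ j ∨ m ≠ 0 ∨ n ≠ 0
    · have h1 := Set.disjoint_left.1 (hr2 i j m n h) (sphere_subset_closedBall hz)
      rw [mem_closedBall, not_le] at h1
      linarith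
    · push Not at h
      obtain ⟨rfl, rfl, rfl⟩ := h
      rw [mem_sphere] at hz
      simp only [Int.cast_zero, add_zero, zero_mul]
      linarith
  -- large indices
  have hlarge : ∀ᶠ n in atTop, ∀ z, C * ‖ψ n z - u z‖ ≤ δ / 2 := by
    filter_upwards [hψu (δ / 2 / C) (by positivity)] with n hn z
    have := (hn z).le
    rw [le_div_iff₀ hC] at this
    linarith
  obtain ⟨n₀, hn₀⟩ := eventually_atTop.1 hlarge
  -- the shifted sequence
  have key : ∀ i, ∀ᶠ n in atTop, ∃ m : ℤ, m ≤ -1 ∧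
      HasWinding (bet D u δ (ψ (n + n₀))) (zc i) r m := by
    intro i
    refine hr1 i (fun n => ψ (n + n₀)) (fun n => hψc _) ?_ (fun n => hψm _)
      (fun n z => z + HH D u δ (ψ (n + n₀)) z) ?_ ?_ ?_
    · intro v hv x
      obtain ⟨t, ht, h1⟩ := hψt v hv x
      exact ⟨t, ht, (tendsto_add_atTop_nat n₀).eventually h1⟩
    · intro n
      refine continuousOn_id.add ?_
      exact (HH_cont hδ.le hu (hψc _) hunif' fun z _ => hn₀ _ (by omega) z).mono (hsph i)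
    · intro ε hε
      have h1 : ∀ᶠ n in atTop, ∀ z, ‖ψ (n + n₀) z - u z‖ < ε / (2 * C) :=
        (tendsto_add_atTop_nat n₀).eventually (hψu (ε / (2 * C)) (by positivity))
      filter_upwards [h1] with n hn z hz
      have h2 := HH_small hδ.le hu (hunif' z (hsph i hz)) (hn₀ (n + n₀) (by omega) z)
      rw [dist_eq_norm, add_sub_cancel_left]
      refine h2.trans_lt ?_
      have := hn z
      rw [lt_div_iff₀ (by positivity)] at this
      linarith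
    · refine ⟨c, hcp, Eventually.of_forall fun n z hz => ?_⟩
      have h1 := hunif' z (hsph i hz)
      obtain ⟨h2, h3⟩ := HH_spec hδ.le hu h1 (hn₀ (n + n₀) (by omega) z)
      exact (h1.2.2 _ h2).2 _ h3
  obtain ⟨n, hn⟩ := (eventually_all.2 key).exists
  choose k hk1 hk2 using hn
  have hsum := TWc τ hτ (bet D u δ (ψ (n + n₀))) (bet_per hO hl (hψl _)) N zc k r₀ r hr0p hr0r hr2
    (bet_cont hO hu (hψc _) (HH_cont hδ.le hu (hψc _) hunif' fun z _ => hn₀ _ (by omega) z))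
    (by
      intro z hz h
      have h1 := hunif' z hz
      obtain ⟨h2, h3⟩ := HH_spec hδ.le hu h1 (hn₀ (n + n₀) (by omega) z)
      have h4 := (h1.2.2 _ h2).2 _ h3
      rw [bet] at h
      rw [h, norm_zero] at h4
      have h5 : 0 < ‖ψ (n + n₀) z - u (z + HH D u δ (ψ (n + n₀)) z)‖ :=
        norm_pos_iff.2 (sub_ne_zero.2 (hψm _ _ _))
      have := mul_pos hcp h5
      linarith) hk2
  -- there is a critical point
  have hcrit : fderiv ℝ u ((p₀.1 : ℂ) + p₀.2 * τ) 1 = 0 := by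
    rw [hudef, fderiv_up_one hf.smooth, coord_apply τ hτ]
    exact hp₀
  obtain ⟨i, -⟩ := hc2 _ hcrit
  have hneg : ∑ i, k i < ∑ _i : Fin N, (0 : ℤ) :=
    Finset.sum_lt_sum_of_nonempty ⟨i, Finset.mem_univ i⟩ fun j _ => by
      have := hk1 j
      omega
  rw [hsum] at hneg
  simp at hneg

end Vale.Agent.P247.H74.CEG
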