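import Vale.Agent.P247.H74.CE.OmL
import Vale.Agent.P247.H74.CE.Cls
import Vale.Agent.P247.H94.P4
import Vale.Agent.P247.H74.SP.Main

/-!
# CE, local part: leading term, coordinates, tangent vector
-/

open scoped ContDiff Topology
open Set MeasureTheory Filter Metric Asymptotics

noncomputable section

namespace Vale.Agent.P247.H74

namespace CE

/-- the leading term of `u` at the origin -/
structure Lead (D : Data) (u : ℂ → R4) (k : ℕ) (a b : R4) : Prop where
  hu : JH D u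
  hk : 1 ≤ k
  hab : Om D (u 0) a b ≠ 0
  rem0 : Cl ((k : ℤ) + 1) (fun z => u z - u 0 - cm D (u 0) (z ^ k) a)
  rem1 : Cl (k : ℤ) (fun z => fderiv ℝ u z 1 - cm D (u 0) (k * z ^ (k - 1)) a)

theorem rem_fderiv (D : Data) {u : ℂ → R4} (hu : ContDiff ℝ ∞ u) (k : ℕ) (a : R4) (z : ℂ) :
    fderiv ℝ (rem D u 0 k a) z 1 = fderiv ℝ u z 1 - cm D (u 0) (k * z ^ (k - 1)) a := by
  have e1 : HasFDerivAt (fun z : ℂ => (z - 0) ^ k)
      ((ContinuousLinearMap.toSpanSingleton ℂ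
        ((k : ℂ) * z ^ (k - 1))).restrictScalars ℝ) z := by
    have : HasDerivAt (fun z : ℂ => (z - 0) ^ k) ((k : ℂ) * z ^ (k - 1)) z := by
      have := ((hasDerivAt_id z).sub_const 0).fun_pow k
      simpa using this
    exact this.hasFDerivAt.restrictScalars ℝ
  have e2 := (((cmB D (u 0)).flip a).hasFDerivAt).comp z e1
  have e3 := ((hu.differentiable (by simp)) z).hasFDerivAt
  have e4 := (e3.sub_const (u 0)).sub e2
  have e5 : (rem D u 0 k a) = fun z => u z - u 0 - ((cmB D (u 0)).flip a ∘ fun z : ℂ => (z - 0) ^ k) z := by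
    funext z
    simp [rem, cmB_apply]
  rw [e5]
  have e6 := e4.fderiv
  rw [show (fun z => u z - u 0 - ((cmB D (u 0)).flip a ∘ fun z : ℂ => (z - 0) ^ k) z) =
    ((fun z => u z - u 0) - ((cmB D (u 0)).flip a ∘ fun z : ℂ => (z - 0) ^ k)) from rfl, e6]
  simp [cmB_apply]

theorem exists_lead {D : Data} {u : ℂ → R4} (hu : JH D u)
    (hinj : ∃ ε > 0, ∀ z ∈ ball (0 : ℂ) ε, ∀ w ∈ ball (0 : ℂ) ε, u z = u w → z = w) :
    ∃ k a b, Lead D u k a b := by
  obtain ⟨ε, hε, hinj⟩ := hinj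
  rcases H94.P4 SP D u 0 hu with h | ⟨k, a, hk, ha, hj⟩
  · exfalso
    have h1 : ball (0 : ℂ) ε ∈ 𝓝 (0 : ℂ) := ball_mem_nhds 0 hε
    have h2 : ∀ᶠ z in 𝓝[≠] (0 : ℂ), z = 0 := by
      filter_upwards [nhdsWithin_le_nhds h, nhdsWithin_le_nhds h1] with z hz hz1
      exact hinj z hz1 0 (mem_ball_self hε) hz
    have h3 := (h2.and self_mem_nhdsWithin).exists
    obtain ⟨z, h4, h5⟩ := h3
    exact h5 h4
  · obtain ⟨b, hb⟩ := exists_frame D (u 0) a ha
    refine ⟨k, a, b, hu, hk, hb, ?_, ?_⟩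
    · have hs : ContDiff ℝ ∞ (rem D u 0 k a) := H94.smooth_rem D hu.1 0 k a
      have e0 : (fun z => u z - u 0 - cm D (u 0) (z ^ k) a) = rem D u 0 k a := by
        funext z
        simp [rem]
      rw [e0]
      refine ⟨Eventually.of_forall fun z => (hs.of_le (by simp)).contDiffAt, ?_, ?_⟩
      · have h0 := (hj 0 (by omega)).mono (nhdsWithin_le_nhds (s := {(0 : ℂ)}ᶜ))
        have h1 : (rem D u 0 k a) =O[𝓝[≠] 0] fun z => iteratedFDeriv ℝ 0 (rem D u 0 k a) z :=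
          IsBigO.of_bound 1 (Eventually.of_forall fun z => by
            rw [norm_iteratedFDeriv_zero, one_mul])
        refine h1.trans (h0.congr' (EventuallyEq.refl _ _) (Eventually.of_forall fun z => ?_))
        simp only [sub_zero]
        exact_mod_cast (zpow_natCast ‖z‖ (k + 1)).symm
      · have h0 := (hj 1 (by omega)).mono (nhdsWithin_le_nhds (s := {(0 : ℂ)}ᶜ))
        have h1 : (fderiv ℝ (rem D u 0 k a)) =O[𝓝[≠] 0]
            fun z => iteratedFDeriv ℝ 1 (rem D u 0 k a) z :=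
          IsBigO.of_bound 1 (Eventually.of_forall fun z => by
            rw [norm_iteratedFDeriv_one, one_mul])
        refine h1.trans (h0.congr' (EventuallyEq.refl _ _) (Eventually.of_forall fun z => ?_))
        simp only [sub_zero, add_sub_cancel_right]
        rw [zpow_natCast]
        rfl
    · have hs : ContDiff ℝ ∞ (rem D u 0 k a) := H94.smooth_rem D hu.1 0 k a
      have hs1 : ContDiff ℝ ∞ (fderiv ℝ (rem D u 0 k a)) := hs.fderiv_right (m := ∞) (by simp)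
      have e0 : (fun z => fderiv ℝ u z 1 - cm D (u 0) (k * z ^ (k - 1)) a) =
          fun z => fderiv ℝ (rem D u 0 k a) z 1 := by
        funext z
        rw [rem_fderiv D hu.1]
      rw [e0]
      refine ⟨Eventually.of_forall fun z => ((hs1.clm_apply contDiff_const).of_le
        (by simp)).contDiffAt, ?_, ?_⟩
      · have h0 := (hj 1 (by omega)).mono (nhdsWithin_le_nhds (s := {(0 : ℂ)}ᶜ))
        have h1 : (fun z => fderiv ℝ (rem D u 0 k a) z 1) =O[𝓝[≠] 0]
            fun z => iteratedFDeriv ℝ 1 (rem D u 0 k a) z :=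
          IsBigO.of_bound 1 (Eventually.of_forall fun z => by
            rw [norm_iteratedFDeriv_one, one_mul]
            simpa using (fderiv ℝ (rem D u 0 k a) z).le_opNorm 1)
        refine h1.trans (h0.congr' (EventuallyEq.refl _ _) (Eventually.of_forall fun z => ?_))
        simp only [sub_zero]
        rw [zpow_natCast]
        rfl
      · have h0 := (hj 2 (by omega)).mono (nhdsWithin_le_nhds (s := {(0 : ℂ)}ᶜ))
        have h1 : (fderiv ℝ (fun z => fderiv ℝ (rem D u 0 k a) z 1)) =O[𝓝[≠] 0]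
            fun z => iteratedFDeriv ℝ 2 (rem D u 0 k a) z := by
          refine IsBigO.of_bound 1 (Eventually.of_forall fun z => ?_)
          have e1 : HasFDerivAt (fun z => fderiv ℝ (rem D u 0 k a) z 1)
              ((fderiv ℝ (fderiv ℝ (rem D u 0 k a)) z).flip 1) z := by
            have := ((hs1.differentiable (by simp)) z).hasFDerivAt.clm_apply
              (hasFDerivAt_const (1 : ℂ) z)
            simpa using this
          rw [e1.fderiv, one_mul]
          refine ContinuousLinearMap.opNorm_le_bound _ (norm_nonneg _) fun ξ => ?_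
          rw [ContinuousLinearMap.flip_apply]
          have e2 : ‖iteratedFDeriv ℝ 2 (rem D u 0 k a) z‖ = ‖fderiv ℝ (fderiv ℝ (rem D u 0 k a)) z‖ := by
            rw [← norm_iteratedFDeriv_fderiv (n := 1), norm_iteratedFDeriv_one]
          rw [e2]
          calc ‖fderiv ℝ (fderiv ℝ (rem D u 0 k a)) z ξ 1‖
              ≤ ‖fderiv ℝ (fderiv ℝ (rem D u 0 k a)) z ξ‖ * ‖(1 : ℂ)‖ :=
                ContinuousLinearMap.le_opNorm _ _
            _ ≤ _ := by
              rw [norm_one, mul_one]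
              exact ContinuousLinearMap.le_opNorm _ _
        refine h1.trans (h0.congr' (EventuallyEq.refl _ _) (Eventually.of_forall fun z => ?_))
        simp only [sub_zero]
        rw [show (k : ℤ) - 1 = ((k - 1 : ℕ) : ℤ) by push_cast [hk]; ring, zpow_natCast]
        congr 1

namespace Lead

variable {D : Data} {u : ℂ → R4} {k : ℕ} {a b : R4}

theorem k0 (h : Lead D u k a b) : k ≠ 0 := by have := h.hk; omega

theorem k0c (h : Lead D u k a b) : (k : ℂ) ≠ 0 := by exact_mod_cast h.k0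

theorem cont (h : Lead D u k a b) : Continuous u := h.hu.1.continuous

theorem sub_cl (h : Lead D u k a b) : Cl (k : ℤ) (fun z => u z - u 0) := by
  have h1 : Cl (k : ℤ) (fun z : ℂ => (cmB D (u 0)).flip a (z ^ k)) := by
    have := (Cl.zpow (k : ℤ)).clm ((cmB D (u 0)).flip a)
    simpa only [zpow_natCast] using this
  refine ((h.rem0.mono (m' := (k : ℤ)) (by omega)).add h1).congr (Eventually.of_forall fun z => ?_)
  simp [cmB_apply]

theorem T_cl (h : Lead D u k a b) : Cl ((k : ℤ) - 1) (fun z => fderiv ℝ u z 1) := by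
  have h1 : Cl ((k : ℤ) - 1) (fun z : ℂ => ((k : ℝ) • (cmB D (u 0)).flip a) (z ^ ((k : ℤ) - 1))) :=
    (Cl.zpow ((k : ℤ) - 1)).clm ((k : ℝ) • (cmB D (u 0)).flip a)
  refine ((h.rem1.mono (m' := (k : ℤ) - 1) (by omega)).add h1).congr
    (Eventually.of_forall fun z => ?_)
  have e1 : z ^ ((k : ℤ) - 1) = z ^ (k - 1) := by
    rw [show (k : ℤ) - 1 = ((k - 1 : ℕ) : ℤ) by push_cast [h.hk]; ring, zpow_natCast]
  have e2 : ((k : ℂ) * z ^ (k - 1)) = (k : ℝ) • z ^ (k - 1) := by simp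
  rw [e1, e2]
  simp only [← cmB_apply, smul_apply, ContinuousLinearMap.flip_apply, map_smul]
  abel

/-- `k ≥ 2` at a critical point -/
theorem two_le (h : Lead D u k a b) (hc : fderiv ℝ u 0 1 = 0) : 2 ≤ k := by
  by_contra hk
  have hk1 : k = 1 := by have := h.hk; omega
  subst hk1
  have h1 : Tendsto (fun z => fderiv ℝ u z 1 - cm D (u 0) ((1 : ℕ) * z ^ (1 - 1)) a) (𝓝[≠] 0)
      (𝓝 0) := h.rem1.tendsto (by norm_num)
  have h2 : Tendsto (fun z => fderiv ℝ u z 1) (𝓝[≠] 0) (𝓝 0) := by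
    have h3 : Continuous (fderiv ℝ u) := h.hu.1.continuous_fderiv (by simp)
    have h4 : Continuous (fun z => fderiv ℝ u z 1) := by fun_prop
    have := (h4.tendsto 0).mono_left (nhdsWithin_le_nhds (s := {(0 : ℂ)}ᶜ))
    rwa [hc] at this
  have h3 := h2.sub h1
  simp only [sub_sub_cancel, sub_zero] at h3
  have h4 : cm D (u 0) ((1 : ℕ) * (1 : ℂ)) a = 0 := by
    refine tendsto_nhds_unique (tendsto_const_nhds (f := 𝓝[≠] (0 : ℂ))) ?_
    simpa using h3
  rw [Nat.cast_one, one_mul, cm_one] at h4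
  exact frame_ne D (u 0) a b h.hab h4

/-- the normalised tangent vector -/
def uh (D : Data) (u : ℂ → R4) (k : ℕ) (z : ℂ) : R4 :=
  cm D (u z) ((k * z ^ (k - 1) : ℂ)⁻¹) (fderiv ℝ u z 1)

theorem T_eq (h : Lead D u k a b) {z : ℂ} (hz : z ≠ 0) :
    fderiv ℝ u z 1 = cm D (u z) (k * z ^ (k - 1)) (uh D u k z) := by
  have h1 : (k * z ^ (k - 1) : ℂ) ≠ 0 := mul_ne_zero h.k0c (pow_ne_zero _ hz)
  rw [uh, cm_cm, mul_inv_cancel₀ h1, cm_one]

theorem uh_cl (h : Lead D u k a b) : Cl 1 (fun z => uh D u k z - a) := by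
  have hq : Cl (1 - (k : ℤ)) (fun z : ℂ => ((k * z ^ (k - 1) : ℂ)⁻¹)) := by
    have h1 : Cl (1 - (k : ℤ)) (fun z : ℂ => ((k : ℝ)⁻¹ • ContinuousLinearMap.id ℝ ℂ)
      (z ^ (1 - (k : ℤ)))) := (Cl.zpow (1 - (k : ℤ))).clm _
    refine h1.congr (Eventually.of_forall fun z => ?_)
    have e1 : z ^ (1 - (k : ℤ)) = (z ^ (k - 1))⁻¹ := by
      rw [show 1 - (k : ℤ) = -((k - 1 : ℕ) : ℤ) by push_cast [h.hk]; ring, zpow_neg, zpow_natCast]
    rw [e1, mul_inv]
    simp
  have hJ : Cl (k : ℤ) (fun z => cmB D (u z) - cmB D (u 0)) :=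
    h.sub_cl.left ((cmB_smooth D).contDiffAt.of_le (by simp)) (by have := h.hk; omega)
  -- first term
  have h1 : Cl ((k : ℤ) + (1 - (k : ℤ)) + ((k : ℤ) - 1))
      (fun z => (cmB D (u z) - cmB D (u 0)) ((k * z ^ (k - 1) : ℂ)⁻¹) (fderiv ℝ u z 1)) := by
    have e1 := (hJ.bil (ContinuousLinearMap.id ℝ (ℂ →L[ℝ] R4 →L[ℝ] R4)) hq)
    exact e1.bil (ContinuousLinearMap.id ℝ (R4 →L[ℝ] R4)) h.T_cl
  -- second term
  have h2 : Cl ((1 - (k : ℤ)) + (k : ℤ)) (fun z => cmB D (u 0) ((k * z ^ (k - 1) : ℂ)⁻¹)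
      (fderiv ℝ u z 1 - cm D (u 0) (k * z ^ (k - 1)) a)) :=
    hq.bil (cmB D (u 0)) h.rem1
  refine ((h1.mono (m' := 1) (by have := h.hk; omega)).add
    (h2.mono (m' := 1) (by omega))).congr ?_
  filter_upwards [ne_ev] with z hz
  have h3 : (k * z ^ (k - 1) : ℂ) ≠ 0 := mul_ne_zero h.k0c (pow_ne_zero _ hz)
  simp only [sub_apply, cmB_apply, cm_sub, cm_cm, uh, inv_mul_cancel₀ h3, cm_one]
  abel

/-- the coordinates of `u` -/
theorem p1_u (h : Lead D u k a b) (z : ℂ) : p1 D (u 0) a b (u z - u 0) =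
    z ^ k + p1 D (u 0) a b (u z - u 0 - cm D (u 0) (z ^ k) a) := by
  conv_rhs => rw [map_sub, p1_a D (u 0) a b h.hab]
  ring

theorem u2_cl (h : Lead D u k a b) :
    Cl ((k : ℤ) + 1) (fun z => p2 D (u 0) a b (u z - u 0)) := by
  refine (h.rem0.clm (p2 D (u 0) a b)).congr (Eventually.of_forall fun z => ?_)
  rw [map_sub, p2_a, sub_zero]

/-- the coordinate in which `u1` is a power -/
def zt (D : Data) (u : ℂ → R4) (k : ℕ) (a b : R4) (z : ℂ) : ℂ :=
  z * (1 + p1 D (u 0) a b (u z - u 0 - cm D (u 0) (z ^ k) a) * z ^ (-(k : ℤ))) ^ ((k : ℂ)⁻¹)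

theorem zt_zero : zt D u k a b 0 = 0 := by simp [zt]

theorem zt_pow (h : Lead D u k a b) (z : ℂ) :
    zt D u k a b z ^ k = p1 D (u 0) a b (u z - u 0) := by
  rw [zt, mul_pow, Complex.cpow_nat_inv_pow _ h.k0]
  rcases eq_or_ne z 0 with rfl | hz
  · simp [zero_pow h.k0]
  · rw [h.p1_u z]
    rw [zpow_neg, zpow_natCast]
    have := pow_ne_zero k hz
    field_simp

theorem zt_cl (h : Lead D u k a b) : Cl 2 (fun z => zt D u k a b z - z) := by
  set ρ : ℂ → ℂ := fun z => p1 D (u 0) a b (u z - u 0 - cm D (u 0) (z ^ k) a) * z ^ (-(k : ℤ))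
    with hρ
  have h1 : Cl ((k : ℤ) + 1 + (-(k : ℤ))) ρ :=
    (h.rem0.clm (p1 D (u 0) a b)).bil (ContinuousLinearMap.mul ℝ ℂ) (Cl.zpow (-(k : ℤ)))
  have h2 : Cl 1 (fun z => ρ z - 0) := by
    simpa using h1.mono (m' := 1) (by omega)
  have hΦ : ContDiffAt ℝ 1 (fun w : ℂ => (1 + w) ^ ((k : ℂ)⁻¹)) 0 := by
    have e1 : AnalyticAt ℂ (fun w : ℂ => (1 + w) ^ ((k : ℂ)⁻¹)) 0 := by
      refine AnalyticAt.cpow (by fun_prop) (by fun_prop) ?_
      simp
    exact (e1.contDiffAt (n := 1)).restrict_scalars ℝ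
  have h3 := h2.left hΦ le_rfl
  have h4 : Cl (1 + 1) (fun z : ℂ => z * ((1 + ρ z) ^ ((k : ℂ)⁻¹) - (1 + 0) ^ ((k : ℂ)⁻¹))) := by
    have := (Cl.zpow 1).bil (ContinuousLinearMap.mul ℝ ℂ) h3
    simpa using this
  refine (h4.mono (m' := 2) (by norm_num)).congr (Eventually.of_forall fun z => ?_)
  simp only [add_zero, Complex.one_cpow, zt, hρ]
  ring

theorem zt_c1 (h : Lead D u k a b) : ContDiffAt ℝ 1 (zt D u k a b) 0 ∧
    HasFDerivAt (zt D u k a b) (ContinuousLinearMap.id ℝ ℂ) 0 := by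
  obtain ⟨h1, h2⟩ := h.zt_cl.contDiffAt (by simp [zt_zero])
  have e : (fun z => (zt D u k a b z - z) + z) = zt D u k a b := by
    funext z
    ring
  constructor
  · have := h1.add contDiffAt_id
    rw [← e]
    exact this
  · have := h2.add (hasFDerivAt_id (𝕜 := ℝ) (0 : ℂ))
    rw [zero_add] at this
    rw [← e]
    exact this

/-- the inverse of `zt` -/
theorem exists_inv (h : Lead D u k a b) : ∃ (ξ : ℂ → ℂ) (δ : ℝ), 0 < δ ∧ ξ 0 = 0 ∧
    ContDiffOn ℝ 1 ξ (ball 0 δ) ∧ (∀ c ∈ ball (0 : ℂ) δ, zt D u k a b (ξ c) = c) ∧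
    (∀ᶠ z in 𝓝 (0 : ℂ), ξ (zt D u k a b z) = z) := by
  obtain ⟨h1, h2⟩ := h.zt_c1
  have h2' : HasFDerivAt (zt D u k a b) ((ContinuousLinearEquiv.refl ℝ ℂ : ℂ ≃L[ℝ] ℂ) : ℂ →L[ℝ] ℂ) 0 := h2
  have hn : (1 : WithTop ℕ∞) ≠ 0 := one_ne_zero
  set e := h1.toOpenPartialHomeomorph (zt D u k a b) h2' hn with he
  have e1 : (e : ℂ → ℂ) = zt D u k a b := h1.toOpenPartialHomeomorph_coe h2' hn
  have e2 : (0 : ℂ) ∈ e.source := h1.mem_toOpenPartialHomeomorph_source h2' hn
  have e3 : ContDiffAt ℝ 1 e.symm (zt D u k a b 0) := h1.to_localInverse h2' hn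
  rw [zt_zero] at e3
  have e4 : (0 : ℂ) ∈ e.target := by
    have := e.map_source e2
    rwa [e1, zt_zero] at this
  have e5 : e.symm 0 = 0 := by
    have := e.left_inv e2
    rwa [e1, zt_zero] at this
  have e6 : ∀ᶠ c in 𝓝 (0 : ℂ), ContDiffAt ℝ 1 e.symm c ∧ c ∈ e.target :=
    (e3.eventually (by simp)).and (e.open_target.mem_nhds e4)
  obtain ⟨δ, hδ, e7⟩ := Metric.eventually_nhds_iff_ball.1 e6
  refine ⟨e.symm, δ, hδ, e5, fun c hc => (e7 c hc).1.contDiffWithinAt, fun c hc => ?_, ?_⟩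
  · have := e.right_inv (e7 c hc).2
    rwa [e1] at this
  · filter_upwards [e.open_source.mem_nhds e2] with z hz
    have := e.left_inv hz
    rwa [e1] at this

end Lead

end CE

end Vale.Agent.P247.H74
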