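import Vale.Agent.P247.H74.CE.Lc

/-!
# CE, local part: comparison and conclusion
-/

open scoped ContDiff Topology
open Set MeasureTheory Filter Metric Asymptotics

noncomputable section

namespace Vale.Agent.P247.H74

namespace CE

/-- the annihilator of the tangent line -/
def Gf (D : Data) (u : ℂ → R4) (y : ℂ) : R4 →L[ℝ] ℂ := OmL D (u y) (fderiv ℝ u y 1)

theorem Gf_smooth {D : Data} {u : ℂ → R4} (hu : JH D u) : ContDiff ℝ ∞ (Gf D u) := by
  have h1 : ContDiff ℝ ∞ (fun y => OmL D (u y)) := (OmL_smooth D).comp hu.1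
  have h2 : ContDiff ℝ ∞ (fderiv ℝ u) := hu.1.fderiv_right (m := ∞) (by simp)
  have h3 : ContDiff ℝ ∞ (fun y => fderiv ℝ u y 1) := h2.clm_apply contDiff_const
  exact h1.clm_apply h3

theorem Gf_ker {D : Data} {u : ℂ → R4} (hu : JH D u) (y w : ℂ) :
    Gf D u y (fderiv ℝ u y w) = 0 := by
  rw [Gf, OmL_apply, fderiv_cm D hu y w, Om_cm, Om_self, mul_zero]

/-- second order Taylor estimate near a point -/
theorem taylor_local {u : ℂ → R4} (hu : ContDiff ℝ ∞ u) (x : ℂ) :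
    ∃ C, 0 ≤ C ∧ ∀ᶠ q : ℂ × ℂ in 𝓝 (x, x),
      ‖u q.1 - u q.2 - fderiv ℝ u q.2 (q.1 - q.2)‖ ≤ C * ‖q.1 - q.2‖ ^ 2 := by
  have h2 : ContDiff ℝ ∞ (fderiv ℝ u) := hu.fderiv_right (m := ∞) (by simp)
  obtain ⟨K, t, ht, hK⟩ := ((h2.contDiffAt (x := x)).of_le (m := 1) (by simp)).exists_lipschitzOnWith
  obtain ⟨ε, hε, hb⟩ := Metric.mem_nhds_iff.1 ht
  refine ⟨K, K.2, ?_⟩
  have h3 : ball x ε ×ˢ ball x ε ∈ 𝓝 (x, x) := prod_mem_nhds (ball_mem_nhds x hε) (ball_mem_nhds x hε)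
  filter_upwards [h3] with q hq
  have hseg : segment ℝ q.2 q.1 ⊆ ball x ε := (convex_ball x ε).segment_subset hq.2 hq.1
  have h4 := (convex_segment q.2 q.1).norm_image_sub_le_of_norm_hasFDerivWithin_le'
    (f := u) (f' := fderiv ℝ u) (φ := fderiv ℝ u q.2) (C := K * ‖q.1 - q.2‖)
    (fun w _ => ((hu.differentiable (by simp)) w).hasFDerivAt.hasFDerivWithinAt)
    (fun w hw => ?_) (left_mem_segment ℝ q.2 q.1) (right_mem_segment ℝ q.2 q.1)
  · rw [sq, ← mul_assoc]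
    exact h4
  · have h5 := hK.dist_le_mul w (hb (hseg hw)) q.2 (hb hq.2)
    rw [dist_eq_norm, dist_eq_norm] at h5
    refine h5.trans ?_
    gcongr
    obtain ⟨s, t, hs, ht, hst, rfl⟩ := hw
    have : s • q.2 + t • q.1 - q.2 = t • (q.1 - q.2) := by
      have : s = 1 - t := by linarith
      rw [this]
      module
    rw [this, norm_smul, Real.norm_of_nonneg ht]
    have : t ≤ 1 := by linarith
    exact mul_le_of_le_one_left (norm_nonneg _) this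

/-- lower Lipschitz estimate near a point where the curve is immersed -/
theorem lower_local {D : Data} {u : ℂ → R4} (hu : JH D u) {x : ℂ} (hx : fderiv ℝ u x 1 ≠ 0) :
    ∃ c, 0 < c ∧ ∀ᶠ q : ℂ × ℂ in 𝓝 (x, x), c * ‖q.1 - q.2‖ ≤ ‖u q.1 - u q.2‖ := by
  have hinj : Function.Injective (fderiv ℝ u x) := by
    rw [injective_iff_map_eq_zero]
    intro w hw
    rw [fderiv_cm D hu] at hw
    exact H94.cm_eq_zero D (u x) _ w hx hw
  obtain ⟨K, hK0, hK⟩ := (fderiv ℝ u x).toLinearMap.exists_antilipschitzWith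
    (LinearMap.ker_eq_bot.2 hinj)
  have hKp : (0 : ℝ) < K := by exact_mod_cast hK0
  have h1 : ∀ w, ‖w‖ ≤ K * ‖fderiv ℝ u x w‖ := fun w => by
    have := hK.le_mul_norm (map_zero _) w
    simpa using this
  have h2 : HasStrictFDerivAt u (fderiv ℝ u x) x :=
    (hu.1.contDiffAt (x := x)).hasStrictFDerivAt (by simp)
  refine ⟨1 / (2 * K), by positivity, ?_⟩
  have h3 := (isLittleO_iff.1 h2.isLittleO) (show 0 < 1 / (2 * (K : ℝ)) by positivity)
  filter_upwards [h3] with q hq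
  have h4 := h1 (q.1 - q.2)
  have h5 : ‖fderiv ℝ u x (q.1 - q.2)‖ ≤ ‖u q.1 - u q.2‖ +
      ‖u q.1 - u q.2 - fderiv ℝ u x (q.1 - q.2)‖ := by
    have := norm_sub_le (u q.1 - u q.2) (u q.1 - u q.2 - fderiv ℝ u x (q.1 - q.2))
    rwa [sub_sub_cancel] at this
  have h6 : ‖q.1 - q.2‖ ≤ K * (‖u q.1 - u q.2‖ + 1 / (2 * K) * ‖q.1 - q.2‖) := by
    refine h4.trans ?_
    gcongr
    exact h5.trans (by gcongr)
  have h7 : K * (1 / (2 * (K : ℝ)) * ‖q.1 - q.2‖) = ‖q.1 - q.2‖ / 2 := by field_simp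
  have h8 : ‖q.1 - q.2‖ / 2 ≤ K * ‖u q.1 - u q.2‖ := by
    rw [mul_add, h7] at h6
    linarith
  rw [div_mul_eq_mul_div, one_mul, div_le_iff₀ (by positivity)]
  linarith

/-- the comparison of the transversal components at two nearby feet -/
theorem compare {D : Data} {u : ℂ → R4} (hu : JH D u) {x : ℂ} (hx : fderiv ℝ u x 1 ≠ 0)
    {ι : Type*} {l : Filter ι} {z' z'' : ι → ℂ} (h1 : Tendsto z' l (𝓝 x))
    (h2 : Tendsto z'' l (𝓝 x)) {v : ι → R4} {c₄ c₅ : ℝ} (hc₄ : 0 < c₄) (hc₅ : 0 < c₅)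
    (h4 : ∀ᶠ i in l, c₄ * ‖v i - u (z'' i)‖ ≤ ‖Gf D u (z'' i) (v i - u (z'' i))‖)
    (h5 : ∀ᶠ i in l, c₅ * ‖v i - u (z' i)‖ ≤ ‖Gf D u (z' i) (v i - u (z' i))‖)
    (h6 : ∀ᶠ i in l, Gf D u (z'' i) (v i - u (z'' i)) ≠ 0) :
    ∀ᶠ i in l, ‖Gf D u (z' i) (v i - u (z' i)) - Gf D u (z'' i) (v i - u (z'' i))‖ <
      ‖Gf D u (z'' i) (v i - u (z'' i))‖ := by
  obtain ⟨C₁, t, ht, hC₁⟩ :=
    (((Gf_smooth hu).contDiffAt (x := x)).of_le (m := 1) (by simp)).exists_lipschitzOnWith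
  obtain ⟨C₂, hC₂, e2⟩ := taylor_local hu.1 x
  obtain ⟨c₃, hc₃, e3⟩ := lower_local hu hx
  have e1' : ∀ᶠ i in l, z' i ∈ t := h1.eventually ht
  have e1'' : ∀ᶠ i in l, z'' i ∈ t := h2.eventually ht
  have e2' : ∀ᶠ i in l, ‖u (z'' i) - u (z' i) - fderiv ℝ u (z' i) (z'' i - z' i)‖ ≤
      C₂ * ‖z'' i - z' i‖ ^ 2 := (h2.prodMk_nhds h1).eventually e2
  have e3' : ∀ᶠ i in l, c₃ * ‖z'' i - z' i‖ ≤ ‖u (z'' i) - u (z' i)‖ :=
    (h2.prodMk_nhds h1).eventually e3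
  obtain ⟨C₆, e6⟩ : ∃ C₆, ∀ᶠ i in l, ‖Gf D u (z' i)‖ ≤ C₆ := by
    have : Tendsto (fun i => Gf D u (z' i)) l (𝓝 (Gf D u x)) :=
      ((Gf_smooth hu).continuous.tendsto x).comp h1
    exact ⟨_, this.norm.eventually_le_const (lt_add_one _)⟩
  set C₆' := max C₆ 0 with hC₆'
  have hC₆0 : 0 ≤ C₆' := le_max_right _ _
  set K : ℝ := C₁ / c₄ + C₆' * C₂ / c₃ * (1 / c₅ + 1 / c₄) with hK
  have hK0 : 0 ≤ K := by positivity
  have e7 : ∀ᶠ i in l, ‖z'' i - z' i‖ ≤ 1 / (4 * (K + 1)) := by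
    have : Tendsto (fun i => ‖z'' i - z' i‖) l (𝓝 0) := by
      simpa using (h2.sub h1).norm
    exact this.eventually_le_const (by positivity)
  filter_upwards [h4, h5, h6, e1', e1'', e2', e3', e6, e7] with i h4 h5 h6 e1' e1'' e2' e3' e6 e7
  set d := ‖z'' i - z' i‖ with hd
  set β := Gf D u (z' i) (v i - u (z' i)) with hβ
  set β'' := Gf D u (z'' i) (v i - u (z'' i)) with hβ''
  have hd0 : 0 ≤ d := norm_nonneg _
  have f1 : β - β'' = (Gf D u (z' i) - Gf D u (z'' i)) (v i - u (z'' i)) +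
      Gf D u (z' i) (u (z'' i) - u (z' i) - fderiv ℝ u (z' i) (z'' i - z' i)) := by
    rw [map_sub (Gf D u (z' i)) (u (z'' i) - u (z' i)), Gf_ker hu, sub_zero, sub_apply,
      hβ, hβ'']
    simp only [map_sub]
    abel
  have f2 : ‖Gf D u (z' i) - Gf D u (z'' i)‖ ≤ C₁ * d := by
    have := hC₁.dist_le_mul _ e1' _ e1''
    rw [dist_eq_norm, dist_eq_norm, norm_sub_rev (z' i)] at this
    exact this
  have f3 : ‖β - β''‖ ≤ C₁ * d * ‖v i - u (z'' i)‖ + C₆' * (C₂ * d ^ 2) := by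
    rw [f1]
    refine (norm_add_le _ _).trans (add_le_add ?_ ?_)
    · exact (ContinuousLinearMap.le_opNorm _ _).trans (by gcongr)
    · exact (ContinuousLinearMap.le_opNorm _ _).trans (by
        gcongr
        exact e6.trans (le_max_left _ _))
  have f4 : ‖u (z'' i) - u (z' i)‖ ≤ ‖v i - u (z' i)‖ + ‖v i - u (z'' i)‖ := by
    have := norm_sub_le (v i - u (z' i)) (v i - u (z'' i))
    rwa [sub_sub_sub_cancel_left] at this
  have f5 : ‖v i - u (z'' i)‖ ≤ ‖β''‖ / c₄ := by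
    rw [le_div_iff₀ hc₄]
    linarith
  have f6 : ‖v i - u (z' i)‖ ≤ ‖β‖ / c₅ := by
    rw [le_div_iff₀ hc₅]
    linarith
  have f7 : ‖β‖ ≤ ‖β''‖ + ‖β - β''‖ := by
    have := norm_add_le β'' (β - β'')
    rwa [add_sub_cancel] at this
  have f8 : d ≤ (‖v i - u (z' i)‖ + ‖v i - u (z'' i)‖) / c₃ := by
    rw [le_div_iff₀ hc₃]
    linarith
  set N := ‖β''‖ + ‖β - β''‖ with hN
  have hN0 : 0 ≤ N := by positivity
  have hβN : ‖β''‖ ≤ N := le_add_of_nonneg_right (norm_nonneg _)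
  have f9 : ‖v i - u (z'' i)‖ ≤ N / c₄ := f5.trans (by gcongr)
  have f10 : ‖v i - u (z' i)‖ ≤ N / c₅ := f6.trans (by gcongr)
  have f11 : ‖β - β''‖ ≤ d * (K * N) := by
    calc ‖β - β''‖ ≤ C₁ * d * ‖v i - u (z'' i)‖ + C₆' * (C₂ * d ^ 2) := f3
      _ = d * (C₁ * ‖v i - u (z'' i)‖ + C₆' * C₂ * d) := by ring
      _ ≤ d * (C₁ * (N / c₄) + C₆' * C₂ * ((N / c₅ + N / c₄) / c₃)) := by
          gcongr
          exact f8.trans (by gcongr)
      _ = d * (K * N) := by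
          rw [hK]
          field_simp
  have f12 : ‖β - β''‖ ≤ N / 4 := by
    calc ‖β - β''‖ ≤ d * (K * N) := f11
      _ ≤ 1 / (4 * (K + 1)) * ((K + 1) * N) := by gcongr; linarith
      _ = N / 4 := by field_simp
  have f13 : 0 < ‖β''‖ := norm_pos_iff.2 h6
  rw [hN] at f12
  linarith

namespace Inv

variable {D : Data} {u : ℂ → R4} {k : ℕ} {a b : R4} {ξ : ℂ → ℂ} {δ : ℝ}

/-- the transversal component near the origin -/
theorem trans_near (h : Lead D u k a b) : ∀ᶠ y in 𝓝[≠] (0 : ℂ), ∀ t : ℂ,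
    ‖OmL D (u y) (Lead.uh D u k y) (cm D (u 0) t b) - Om D (u 0) a b * t‖ ≤
      ‖Om D (u 0) a b‖ / 2 * ‖t‖ := by
  have h1 := tendsto_P h (σ := fun z => z) contDiffAt_id rfl ne_ev
  have h2 : Tendsto (fun z => ‖OmL D (u z) (Lead.uh D u k z) - OmL D (u 0) a‖) (𝓝[≠] 0) (𝓝 0) := by
    simpa using (h1.sub_const (OmL D (u 0) a)).norm
  have hl : 0 < ‖Om D (u 0) a b‖ := norm_pos_iff.2 h.hab
  set K := ‖(cmB D (u 0)).flip b‖ + 1 with hK
  have hK0 : 0 < K := by positivity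
  have h3 := h2.eventually_le_const (show 0 < ‖Om D (u 0) a b‖ / (2 * K) by positivity)
  filter_upwards [h3] with y hy t
  have h4 : OmL D (u y) (Lead.uh D u k y) (cm D (u 0) t b) - Om D (u 0) a b * t =
      (OmL D (u y) (Lead.uh D u k y) - OmL D (u 0) a) (cm D (u 0) t b) := by
    rw [sub_apply, OmL_apply D (u 0) a, Om_cm]
    ring
  rw [h4]
  have h5 : ‖cm D (u 0) t b‖ ≤ K * ‖t‖ := by
    have := ((cmB D (u 0)).flip b).le_opNorm t
    rw [ContinuousLinearMap.flip_apply, cmB_apply] at this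
    nlinarith [norm_nonneg t]
  calc _ ≤ ‖OmL D (u y) (Lead.uh D u k y) - OmL D (u 0) a‖ * ‖cm D (u 0) t b‖ :=
        ContinuousLinearMap.le_opNorm _ _
    _ ≤ ‖Om D (u 0) a b‖ / (2 * K) * (K * ‖t‖) := by gcongr
    _ = _ := by field_simp

/-- the conclusion at the origin -/
theorem Ld (hi : Inv D u k a b ξ δ) (h : Lead D u k a b) (hk2 : 2 ≤ k)
    (hinj : ∃ ε > 0, ∀ z ∈ ball (0 : ℂ) ε, ∀ w ∈ ball (0 : ℂ) ε, u z = u w → z = w) :
    ∀ᶠ r in 𝓝[>] (0 : ℝ), ∀ ψ : ℕ → ℂ → R4, (∀ n, Continuous (ψ n)) →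
      TendstoLocallyUniformly ψ u atTop → (∀ n z w, ψ n z ≠ u w) →
      ∀ (ζ : ℕ → ℂ → ℂ), (∀ n, ContinuousOn (ζ n) (sphere 0 r)) →
      (∀ ε > 0, ∀ᶠ n in atTop, ∀ z ∈ sphere (0 : ℂ) r, dist (ζ n z) z < ε) →
      (∃ c > 0, ∀ᶠ n in atTop, ∀ z ∈ sphere (0 : ℂ) r, c * ‖ψ n z - u (ζ n z)‖ ≤
        ‖Om D (u (ζ n z)) (fderiv ℝ u (ζ n z) 1) (ψ n z - u (ζ n z))‖) →
      ∀ᶠ n in atTop, ∃ m : ℤ, m ≤ -1 ∧ HasWinding
        (fun z => Om D (u (ζ n z)) (fderiv ℝ u (ζ n z) 1) (ψ n z - u (ζ n z))) 0 r m := by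
  have e1 := ev_closedBall (zt_small h hi.pos)
  have e4 := ev_closedBall hi.left
  have e5 := ev_sphere ((trans_near h).and ne_ev)
  have e6 : ∀ᶠ x in 𝓝[≠] (0 : ℂ), ∀ᶠ y in 𝓝 x, y ≠ 0 ∧ ∀ t : ℂ,
      ‖OmL D (u y) (Lead.uh D u k y) (cm D (u 0) t b) - Om D (u 0) a b * t‖ ≤
      ‖Om D (u 0) a b‖ / 2 * ‖t‖ := by
    have h1 := eventually_nhdsWithin_iff.1 (ne_ev.and (trans_near h))
    rw [eventually_nhdsWithin_iff]
    filter_upwards [h1.eventually_nhds] with x hx hx0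
    have h2 : ∀ᶠ y in 𝓝 x, y ∈ ({0}ᶜ : Set ℂ) := isOpen_compl_singleton.mem_nhds hx0
    filter_upwards [hx, h2] with y h3 h4 using h3 h4
  have e7 := ev_sphere (e6.and ne_ev)
  filter_upwards [hi.Lc h hinj, e1, e4, e7, self_mem_nhdsWithin] with r hLc e1 e4 e7 hr0
    ψ hψ hlim hdisj ζ hζ hζlim hζtr
  have hr : (0 : ℝ) < r := hr0
  obtain ⟨M, hM, c, hcU, hev⟩ := hLc ψ hψ hlim hdisj
  obtain ⟨c₅, hc₅, hc5⟩ := hζtr
  set S := sphere (0 : ℂ) r with hS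
  have hSc : IsCompact S := isCompact_sphere 0 r
  have hSB : S ⊆ closedBall (0 : ℂ) r := sphere_subset_closedBall
  have hl : 0 < ‖Om D (u 0) a b‖ := norm_pos_iff.2 h.hab
  set l0 := Om D (u 0) a b with hl0
  -- the foot of the transversal segment
  set zz : ℕ → ℂ → ℂ := fun n z => ξ (c n z) with hzz
  have hzzU : UC zz (fun z => z) S := by
    have h1 := hcU.comp (g := ξ) fun x hx =>
      hi.c1.continuousOn.continuousAt (isOpen_ball.mem_nhds (e1 x (hSB hx)))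
    intro x hx
    have h2 := h1 x hx
    simp only [e4 x (hSB hx)] at h2
    exact h2
  have hζU : UC ζ (fun z => z) S := UC.of_dist continuousOn_id hζlim
  set f : ℕ → ℂ → ℂ := fun n z => p2 D (u 0) a b (ψ n z - u 0) - U2 D u a b ξ (c n z) with hf
  have hne : ∀ᶠ n in atTop, ∀ z ∈ S, zz n z ≠ 0 ∧ ∀ t : ℂ,
      ‖OmL D (u (zz n z)) (Lead.uh D u k (zz n z)) (cm D (u 0) t b) - l0 * t‖ ≤
      ‖l0‖ / 2 * ‖t‖ :=
    hzzU.ev hSc (s := {y | y ≠ 0 ∧ ∀ t : ℂ,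
      ‖OmL D (u y) (Lead.uh D u k y) (cm D (u 0) t b) - l0 * t‖ ≤ ‖l0‖ / 2 * ‖t‖})
      fun x hx => (e7 x hx).1
  -- the segment is a multiple of `b`
  have hseg : ∀ n, (∀ z ∈ S, c n z ∈ ball (0 : ℂ) δ) →
      (∀ z ∈ S, c n z ^ k = p1 D (u 0) a b (ψ n z - u 0)) → ∀ z ∈ S,
      ψ n z - u (zz n z) = cm D (u 0) (f n z) b := by
    intro n hn1 hn2 z hz
    have h1 := frame_decomp D (u 0) a b h.hab (ψ n z - u (zz n z))
    have h0 : ψ n z - u (zz n z) = (ψ n z - u 0) - (u (zz n z) - u 0) := by abel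
    have h2 : p1 D (u 0) a b (ψ n z - u (zz n z)) = 0 := by
      rw [h0, map_sub, ← hn2 z hz, ← h.zt_pow, hi.right _ (hn1 z hz), sub_self]
    have h3 : p2 D (u 0) a b (ψ n z - u (zz n z)) = f n z := by
      rw [h0, map_sub]
      rfl
    rw [h2, h3, cm_zero, zero_add] at h1
    exact h1
  -- the transversal component at the foot
  have hGf : ∀ n z, zz n z ≠ 0 → Gf D u (zz n z) (ψ n z - u (zz n z)) =
      (k * zz n z ^ (k - 1)) * OmL D (u (zz n z)) (Lead.uh D u k (zz n z))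
        (ψ n z - u (zz n z)) := by
    intro n z hz
    rw [Gf, OmL_apply, h.T_eq hz, cm_Om, OmL_apply]
  have hkey : ∀ᶠ n in atTop, ∀ z ∈ S, zz n z ≠ 0 ∧ f n z ≠ 0 ∧
      ψ n z - u (zz n z) = cm D (u 0) (f n z) b ∧
      ‖Gf D u (zz n z) (ψ n z - u (zz n z)) - (k * zz n z ^ (k - 1)) * (l0 * f n z)‖ ≤
        ‖(k * zz n z ^ (k - 1) : ℂ)‖ * (‖l0‖ / 2 * ‖f n z‖) := by
    filter_upwards [hev, hne] with n h1 h2 z hz
    have h3 := hseg n h1.2.1 h1.2.2.1 z hz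
    refine ⟨(h2 z hz).1, wind_ne hr h1.2.2.2 hz, h3, ?_⟩
    rw [hGf n z (h2 z hz).1, h3, ← mul_sub, norm_mul]
    gcongr
    exact (h2 z hz).2 _
  -- its winding number
  have hw2 : ∀ᶠ n in atTop, HasWinding (fun z => Gf D u (zz n z) (ψ n z - u (zz n z))) 0 r
      (((k : ℤ) - 1) + -M) := by
    have h1 : HasWinding (fun z : ℂ => (k : ℂ) * z ^ (k - 1)) 0 r ((k : ℤ) - 1) := by
      have := WWIND.hasWinding_zpow (c := 0) (r := r) h.k0c ((k : ℤ) - 1)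
      refine wind_congr this fun z _ => ?_
      rw [sub_zero, show (k : ℤ) - 1 = ((k - 1 : ℕ) : ℤ) by push_cast [h.hk]; ring, zpow_natCast]
    have h2 : UC (fun n z => (k : ℂ) * zz n z ^ (k - 1)) (fun z : ℂ => (k : ℂ) * z ^ (k - 1)) S :=
      hzzU.comp (g := fun y : ℂ => (k : ℂ) * y ^ (k - 1)) fun x _ => by fun_prop
    have hzzc : ∀ᶠ n in atTop, ContinuousOn (zz n) S := by
      filter_upwards [hev] with n hn
      exact hi.c1.continuousOn.comp hn.1 hn.2.1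
    have h3 : ∀ᶠ n in atTop, HasWinding (fun z => (k : ℂ) * zz n z ^ (k - 1)) 0 r ((k : ℤ) - 1) := by
      refine h2.wind hr (by fun_prop) (fun z hz => wind_ne hr h1 hz) ?_ h1
      filter_upwards [hzzc] with n hn
      fun_prop
    filter_upwards [h3, hev, hkey, hzzc] with n h3 h4 h5 h6
    have h7 := WWIND.W2 _ _ 0 r _ _ hr h3 (wind_smul (a := l0) h.hab hr h4.2.2.2)
    have hGc : ContinuousOn (fun z => Gf D u (zz n z) (ψ n z - u (zz n z))) S := by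
      have g1 : ContinuousOn (fun z => Gf D u (zz n z)) S :=
        (Gf_smooth h.hu).continuous.comp_continuousOn h6
      have g2 : ContinuousOn (fun z => ψ n z - u (zz n z)) S :=
        (hψ n).continuousOn.sub (h.cont.comp_continuousOn h6)
      exact g1.clm_apply g2
    obtain ⟨q, hq1, hq2⟩ := id h7
    have hfc : ContinuousOn (fun z => (k : ℂ) * zz n z ^ (k - 1) * (l0 * f n z)) S := by
      have g3 : ContinuousOn (fun z : ℂ => (z - 0) ^ (((k : ℤ) - 1) + -M) * Complex.exp (q z)) S := by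
        refine ContinuousOn.mul ?_ (Complex.continuous_exp.comp_continuousOn hq1)
        intro z hz
        exact ((continuousAt_id.sub continuousAt_const).zpow₀ _
          (Or.inl (WWIND.sub_ne hr hz))).continuousWithinAt
      exact g3.congr hq2
    refine WWIND.W5 _ _ 0 r _ hr hfc hGc (fun z hz => ?_) h7
    obtain ⟨g1, g2, g3, g4⟩ := h5 z hz
    refine lt_of_le_of_lt g4 ?_
    rw [norm_mul _ (l0 * f n z), norm_mul l0]
    have g5 : 0 < ‖(k * zz n z ^ (k - 1) : ℂ)‖ :=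
      norm_pos_iff.2 (mul_ne_zero h.k0c (pow_ne_zero _ g1))
    have g6 : 0 < ‖f n z‖ := norm_pos_iff.2 g2
    have g7 : 0 < ‖l0‖ * ‖f n z‖ := mul_pos hl g6
    refine mul_lt_mul_of_pos_left ?_ g5
    linarith
  -- the comparison
  have hcmp : ∀ᶠ n in atTop, ∀ z ∈ S,
      ‖Gf D u (ζ n z) (ψ n z - u (ζ n z)) - Gf D u (zz n z) (ψ n z - u (zz n z))‖ <
      ‖Gf D u (zz n z) (ψ n z - u (zz n z))‖ := by
    refine ev_of_compact hSc fun x hx => ?_
    have hx0 : x ≠ 0 := (e7 x hx).2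
    have hT : fderiv ℝ u x 1 ≠ 0 := by
      intro h0
      -- `u` is immersed at `x` since the transversal component does not vanish
      have h1 := (e7 x hx).1.self_of_nhds.2 1
      have h2 : Lead.uh D u k x = 0 := by rw [Lead.uh, h0, cm_zero_right]
      rw [h2, map_zero, zero_apply, mul_one, zero_sub, norm_neg, norm_one, mul_one] at h1
      linarith
    have hev' : ∀ᶠ y : ℕ × ℂ in atTop ×ˢ 𝓝[S] x, zz y.1 y.2 ≠ 0 ∧ f y.1 y.2 ≠ 0 ∧
        ψ y.1 y.2 - u (zz y.1 y.2) = cm D (u 0) (f y.1 y.2) b ∧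
        ‖Gf D u (zz y.1 y.2) (ψ y.1 y.2 - u (zz y.1 y.2)) -
          (k * zz y.1 y.2 ^ (k - 1)) * (l0 * f y.1 y.2)‖ ≤
        ‖(k * zz y.1 y.2 ^ (k - 1) : ℂ)‖ * (‖l0‖ / 2 * ‖f y.1 y.2‖) := by
      have h1 : ∀ᶠ z in 𝓝[S] x, z ∈ S := self_mem_nhdsWithin
      filter_upwards [hkey.prod_mk h1] with y hy using hy.1 y.2 hy.2
    have hc5' : ∀ᶠ y : ℕ × ℂ in atTop ×ˢ 𝓝[S] x, c₅ * ‖ψ y.1 y.2 - u (ζ y.1 y.2)‖ ≤
        ‖Gf D u (ζ y.1 y.2) (ψ y.1 y.2 - u (ζ y.1 y.2))‖ := by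
      have h1 : ∀ᶠ z in 𝓝[S] x, z ∈ S := self_mem_nhdsWithin
      filter_upwards [hc5.prod_mk h1] with y hy
      have := hy.1 y.2 hy.2
      rwa [← OmL_apply] at this
    have hzx : Tendsto (fun y : ℕ × ℂ => zz y.1 y.2) (atTop ×ˢ 𝓝[S] x) (𝓝 x) := hzzU x hx
    -- lower bound for the size of the derivative
    set κ : ℝ := ‖(k * x ^ (k - 1) : ℂ)‖ / 2 with hκ
    have hκ0 : 0 < κ := by
      have : 0 < ‖(k * x ^ (k - 1) : ℂ)‖ :=
        norm_pos_iff.2 (mul_ne_zero h.k0c (pow_ne_zero _ hx0))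
      positivity
    have hκ' : ∀ᶠ y : ℕ × ℂ in atTop ×ˢ 𝓝[S] x, κ ≤ ‖(k * zz y.1 y.2 ^ (k - 1) : ℂ)‖ := by
      have h1 : Tendsto (fun y : ℕ × ℂ => ‖(k * zz y.1 y.2 ^ (k - 1) : ℂ)‖) (atTop ×ˢ 𝓝[S] x)
          (𝓝 ‖(k * x ^ (k - 1) : ℂ)‖) := by
        have h2 : Continuous (fun t : ℂ => ‖(k * t ^ (k - 1) : ℂ)‖) := by fun_prop
        exact (h2.tendsto x).comp hzx
      exact h1.eventually_const_le (by linarith)
    set Kb := ‖(cmB D (u 0)).flip b‖ + 1 with hKb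
    have hKb0 : 0 < Kb := by positivity
    have hKb1 : ∀ t : ℂ, ‖cm D (u 0) t b‖ ≤ Kb * ‖t‖ := by
      intro t
      have := ((cmB D (u 0)).flip b).le_opNorm t
      rw [ContinuousLinearMap.flip_apply, cmB_apply] at this
      nlinarith [norm_nonneg t]
    refine compare h.hu hT (hζU x hx) hzx (c₄ := κ * (‖l0‖ / 2) / Kb) (by positivity) hc₅ ?_ hc5' ?_
    · filter_upwards [hev', hκ'] with y h1 h2
      obtain ⟨g1, g2, g3, g4⟩ := h1
      have g5 : ‖(k * zz y.1 y.2 ^ (k - 1) : ℂ)‖ * (‖l0‖ / 2 * ‖f y.1 y.2‖) ≤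
          ‖Gf D u (zz y.1 y.2) (ψ y.1 y.2 - u (zz y.1 y.2))‖ := by
        have g6 := norm_sub_norm_le ((k * zz y.1 y.2 ^ (k - 1)) * (l0 * f y.1 y.2))
          (Gf D u (zz y.1 y.2) (ψ y.1 y.2 - u (zz y.1 y.2)))
        rw [norm_sub_rev] at g6
        rw [norm_mul _ (l0 * f y.1 y.2), norm_mul l0] at g6
        nlinarith
      refine le_trans ?_ g5
      rw [g3]
      calc κ * (‖l0‖ / 2) / Kb * ‖cm D (u 0) (f y.1 y.2) b‖
          ≤ κ * (‖l0‖ / 2) / Kb * (Kb * ‖f y.1 y.2‖) := by gcongr; exact hKb1 _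
        _ = κ * (‖l0‖ / 2 * ‖f y.1 y.2‖) := by field_simp
        _ ≤ _ := by gcongr
    · filter_upwards [hev'] with y h1 h0
      obtain ⟨g1, g2, g3, g4⟩ := h1
      rw [h0, zero_sub, norm_neg, norm_mul _ (l0 * f y.1 y.2), norm_mul l0] at g4
      have g5 : 0 < ‖(k * zz y.1 y.2 ^ (k - 1) : ℂ)‖ :=
        norm_pos_iff.2 (mul_ne_zero h.k0c (pow_ne_zero _ g1))
      have g6 : 0 < ‖f y.1 y.2‖ := norm_pos_iff.2 g2
      have g7 : 0 < ‖l0‖ * ‖f y.1 y.2‖ := mul_pos hl g6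
      have g8 := le_of_mul_le_mul_left g4 g5
      linarith
  filter_upwards [hw2, hcmp, hkey, hev] with n h1 h2 h3 h4
  refine ⟨((k : ℤ) - 1) + -M, ?_, ?_⟩
  · have hk' : (2 : ℤ) ≤ k := by exact_mod_cast hk2
    nlinarith
  · have hζc := hζ n
    have g0 : ContinuousOn (zz n) S := hi.c1.continuousOn.comp h4.1 h4.2.1
    have g1 : ContinuousOn (fun z => Gf D u (zz n z) (ψ n z - u (zz n z))) S := by
      have g1 : ContinuousOn (fun z => Gf D u (zz n z)) S :=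
        (Gf_smooth h.hu).continuous.comp_continuousOn g0
      have g2 : ContinuousOn (fun z => ψ n z - u (zz n z)) S :=
        (hψ n).continuousOn.sub (h.cont.comp_continuousOn g0)
      exact g1.clm_apply g2
    have g2 : ContinuousOn (fun z => Gf D u (ζ n z) (ψ n z - u (ζ n z))) S := by
      have g1 : ContinuousOn (fun z => Gf D u (ζ n z)) S :=
        (Gf_smooth h.hu).continuous.comp_continuousOn hζc
      have g2 : ContinuousOn (fun z => ψ n z - u (ζ n z)) S :=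
        (hψ n).continuousOn.sub (h.cont.comp_continuousOn hζc)
      exact g1.clm_apply g2
    have g3 := WWIND.W5 _ _ 0 r _ hr g1 g2 h2 h1
    exact wind_congr g3 fun z _ => OmL_apply _ _ _ _

end Inv

end CE

/-- the local part of the exclusion of cusps -/
theorem CEloc : CEloc_statement := by
  intro D u z₀ hu _ hcrit hinj
  -- translation to the origin
  set v : ℂ → R4 := fun z => u (z + z₀) with hv
  have hvd : ∀ z, fderiv ℝ v z = fderiv ℝ u (z + z₀) := fun z => fderiv_comp_add_right z₀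
  have hvJ : JH D v := by
    refine ⟨hu.1.comp (contDiff_id.add contDiff_const), fun z => ?_⟩
    rw [hvd]
    exact hu.2 (z + z₀)
  have hvinj : ∃ ε > 0, ∀ z ∈ ball (0 : ℂ) ε, ∀ w ∈ ball (0 : ℂ) ε, v z = v w → z = w := by
    obtain ⟨ε, hε, h⟩ := hinj
    have hb : ∀ z ∈ ball (0 : ℂ) ε, z + z₀ ∈ ball z₀ ε := by
      intro z hz
      rw [mem_ball_zero_iff] at hz
      rwa [mem_ball, dist_eq_norm, add_sub_cancel_right]
    exact ⟨ε, hε, fun z hz w hw hzw => add_right_cancel (h _ (hb z hz) _ (hb w hw) hzw)⟩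
  obtain ⟨k, a, b, hL⟩ := CE.exists_lead hvJ hvinj
  have hk2 : 2 ≤ k := hL.two_le (by rw [hvd, zero_add]; exact hcrit)
  obtain ⟨ξ, δ, h1, h2, h3, h4, h5⟩ := hL.exists_inv
  have hi : CE.Inv D v k a b ξ δ := ⟨h1, h2, h3, h4, h5⟩
  filter_upwards [hi.Ld hL hk2 hvinj] with r hr ψ hψ hlim hdisj ζ hζ hζlim hζtr
  have hsp : ∀ z, z ∈ sphere (0 : ℂ) r ↔ z + z₀ ∈ sphere z₀ r := by
    intro z
    rw [mem_sphere_zero_iff_norm, mem_sphere, dist_eq_norm, add_sub_cancel_right]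
  have hconc := hr (fun n z => ψ n (z + z₀)) (fun n => (hψ n).comp (by fun_prop)) ?_
    (fun n z w => hdisj n _ _) (fun n z => ζ n (z + z₀) - z₀) ?_ ?_ ?_
  · filter_upwards [hconc] with n ⟨m, hm, g, hg1, hg2⟩
    refine ⟨m, hm, fun z => g (z - z₀), ?_, ?_⟩
    · refine hg1.comp (by fun_prop) fun z hz => ?_
      rw [hsp, sub_add_cancel]
      exact hz
    · intro z hz
      have h6 := hg2 (z - z₀) (by rw [hsp, sub_add_cancel]; exact hz)
      simp only [hvd] at h6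
      simp only [hv, sub_add_cancel, sub_zero] at h6
      exact h6
  · have : Continuous fun z : ℂ => z + z₀ := by fun_prop
    rw [Metric.tendstoLocallyUniformly_iff] at hlim ⊢
    intro ε hε x
    obtain ⟨t, ht, h6⟩ := hlim ε hε (x + z₀)
    exact ⟨(fun z => z + z₀) ⁻¹' t, this.continuousAt ht, h6.mono fun n hn y hy => hn _ hy⟩
  · intro n
    refine ContinuousOn.sub ((hζ n).comp (by fun_prop) fun z hz => (hsp z).1 hz)
      continuousOn_const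
  · intro ε hε
    filter_upwards [hζlim ε hε] with n hn z hz
    have := hn (z + z₀) ((hsp z).1 hz)
    rw [dist_eq_norm] at this ⊢
    rwa [sub_sub, add_comm z₀ z]
  · obtain ⟨c, hc, h6⟩ := hζtr
    refine ⟨c, hc, ?_⟩
    filter_upwards [h6] with n hn z hz
    have := hn (z + z₀) ((hsp z).1 hz)
    simp only [hvd]
    simp only [hv, sub_add_cancel]
    exact this

end Vale.Agent.P247.H74
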